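import Crest.Agent.X212.Gl67.Leaf

/-!
# Row 212, GL-LOCS (helper45): the face with the data of the long neck

`sE d q` is the face `Z (cf a)` over the parameters `(u, t)`: all data of the job are taken at
`d.s (1 - u ^ 2) t`, the wall stays broken.  `LocS` follows from `LipE` and `LocB`.
-/

set_option autoImplicit false
set_option linter.unusedSectionVars false
noncomputable section
open scoped Manifold ContDiff Topology InnerProductSpace ENNReal NNReal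
open MeasureTheory Set Function Filter

namespace Crest.Agent.X212.Loc45
open An An.Job M Nd18 Mod61 Prm93 Gj67
open Gl67 (Sid Sd Cm Eqn PP WW GG g0 q2)

variable {Wi : Type} {X : Mf 4} {A κ lam : Type} [Fintype A] [Fintype κ] [Fintype lam]
  [DecidableEq lam] {M : Mark X A κ} {W : World M} {L : ML M lam} {Λ : Lns W L}
  {A' h : Type} [Fintype A'] [DecidableEq A'] [Fintype h] {r n : ℕ}
  {J : Job Wi Λ A' h r n} {σ : Cel A'} {a : A'}
  {U Up R : Type} [NormedAddCommGroup U] [NormedSpace ℝ U] [NormedAddCommGroup Up]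
  [NormedSpace ℝ Up] [NormedAddCommGroup R] [NormedSpace ℝ R]

open Classical in
/-- the wall `x` is broken -/
def brk (x : A) (p : Prm A) : Prm A := (p.1, update p.2 x 1)

theorem cd_brk (x : A) : ContDiff ℝ ∞ (brk x) := by
  classical
  refine contDiff_fst.prodMk (contDiff_pi.2 fun y => ?_)
  simp only [update_apply]
  split_ifs <;> fun_prop

theorem brk_eq {x : A} {p : Prm A} (e : p.2 x = 1) : brk x p = p := by
  classical
  exact Prod.ext rfl (update_eq_self_iff.2 e.symm)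

theorem brk_ne {x y : A} (p : Prm A) (e : y ≠ x) : (brk x p).2 y = p.2 y := by
  classical
  exact update_of_ne e _ _

theorem brk_x (x : A) (p : Prm A) : (brk x p).2 x = 1 := by
  classical
  simp [brk]

variable (J) in
/-- the job with the wall `x` broken everywhere (no cells) -/
@[reducible] def jb (x : A) : Job Wi Λ A' h r n :=
  { J with 𝒦 := ∅, hd := fun _ => none, Θ := fun s => brk x (J.Θ s) }

variable (d : Dat J σ a U Up R) (q₀ : Wi →₀ ℝ) (δ : ℝ) (k : ℕ)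

/-- the parameters -/
abbrev θE (v : ℝ × Tc σ a) : A' → ℝ := d.s (1 - v.1 ^ 2) v.2

/-- the domain -/
abbrev QE : Set (ℝ × Tc σ a) := {v | (jb J d.x).Θ (θE d v) ∈ M.O (J.cf a).1}

/-- the family (`= Gla92.jF (jb J d.x) (J.cf a) (J.G _ d.y.s) (θE d) (QE d)` by `rfl`) -/
abbrev FE : Mod61.Fam (W.Z (J.cf a)).I (W.Z (J.cf a)).M (Option κ) (lam ⊕ lam) (ℝ × Tc σ a) :=
  Met55.fam (J.B _) (J.G _ d.y.s).F (J.G _ d.y.s) (fun v => (jb J d.x).G (J.cf a) (θE d v)) (QE d)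
    univ univ

/-- the side: the data of `d.S` -/
@[reducible] def E : Sid (FE d) d.N d.Jc U Up R :=
  ⟨d.S.p, d.S.ρ, d.S.j, d.S.A0, d.S.Φ0, d.S.b, d.S.dr, d.S.bp, d.S.mo, d.S.lo, d.S.ht, d.S.sh⟩

def εE (q : Wi →₀ ℝ) : Eqn (FE d) r n (min r 1) (J.cut (J.cf a)) :=
  ⟨fun v => eqX (jb J d.x) _ q (θE d v), fun v => (jb J d.x).σc _ q (θE d v)⟩

abbrev sE (q : Wi →₀ ℝ) := (E d).sd d.cm (εE d q)

/-- the parameter of the neck `τ` -/
def up (τ : ℝ) (p : PP (Tc σ a) U r h d.N) : PP (ℝ × Tc σ a) U r h d.N := ((√(1 - τ), p.1), p.2)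

/-- LEAF LIP-E (`Oke` and `LipS` for the larger family) -/
def LipE : Prop := ∃ ρ C : ℝ≥0, 0 < ρ ∧ (sE d q₀).Ok ρ ∧ (sE d q₀).Lip δ k ρ ρ C

/-- LEAF GEO-E -/
def GeoE : Prop := (E d).OK ∧ ∃ r > 0, ∃ C, FU (FE d) r C ∧ SU (E d) C

/-- LEAF LOC-B: the comparison over literal backgrounds -/
def LocB : Prop := d.Seq q₀ fun l τ q => ∃ ρ : ℝ≥0, 0 < ρ ∧ ∀ t, ∀ η : ℝ≥0, 0 < η → ∀ᶠ i in l,
  ∀ w ∈ Sec (W.Z M.c0).I (d.Xs (τ i)).bd.pC, tsupport w ⊆ d.hX (τ i) ⁻¹' Iic t → ∀ p, ‖p‖ ≤ ρ →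
    (d.sX (τ i) (q i)).Q (g0 δ) univ (k + 1) w ≤ ρ →
    (d.sS q₀).Q (g0 δ) (Iic t) k ((sE d q₀).E (pull (d.φ (τ i)) w) (up d (τ i) p) -
        (d.sX (τ i) (q i)).E w p ∘ d.φ (τ i)) +
      q2 ((sE d q₀).e (pull (d.φ (τ i)) w) (up d (τ i) p) - (d.sX (τ i) (q i)).e w p) ≤ η

end Crest.Agent.X212.Loc45
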