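import Crest.Agent.X212.Loc45.Ix

/-! # Row 212, GL-LOCS (helper45): the pair of configurations is good -/

set_option autoImplicit false
set_option maxHeartbeats 200000
set_option linter.unusedSectionVars false
noncomputable section
open scoped Manifold ContDiff Topology NNReal
open MeasureTheory Set Function Filter Real TopologicalSpace

namespace Crest.Agent.X212.Loc45
open An An.Job M Nd18 Gj67 Gb50 Sob92

section gen
open Rsp69 Rsp69.Cx Rsp69.Tw
variable {E : Type} [NormedAddCommGroup E] [NormedSpace ℝ E] [FiniteDimensional ℝ E]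
  [MeasurableSpace E] [BorelSpace E]
  {HM : Type} [TopologicalSpace HM] {I : ModelWithCorners ℝ E HM} [I.Boundaryless]
  {M : Type} [TopologicalSpace M] [ChartedSpace HM M] [IsManifold I ∞ M]
  [MeasurableSpace M] [T2Space M] [BorelSpace M] [SecondCountableTopology M]
  {ι lam : Type} [Fintype ι] [Fintype lam] {𝒟 : Type*} {C : ℕ → ℝ} {n k n₀ : ℕ}
  {V N N' : Type} [NormedAddCommGroup V] [NormedSpace ℝ V] [NormedAddCommGroup N] [NormedSpace ℝ N]
  [NormedAddCommGroup N'] [NormedSpace ℝ N']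

theorem HB.cb {F : Fr I M ι} {f : M → V} (h : HB F.toPre n C f) (hF : F.Tame C) (hn : 5 ≤ n) :
    F.CB 1 f (C 1 + √(|C 0| * |C 0|)) := by
  obtain ⟨u, h1, h2, h3, h4⟩ := h
  have := CB_add h1.1 h2 (h1.2 1) (CB_mono (CB_iff.2 ((Sup.of_tame hF).cb 2 h2 h3))
    (sqrt_le_sqrt (mul_le_mul_of_nonneg_left ((n2_mono hn _).trans (h4.trans (le_abs_self (C 0))))
      (abs_nonneg _))))
  rwa [show (fun x => f x - u x) + u = f from funext fun x => sub_add_cancel _ _] at this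

variable {X : Cx I M ι 𝒟} {T : Tw X lam}

theorem hk_hb {f : 𝒟 → M → V} (h : ∀ᶠ d in X.l, HB (X.F d).toPre n C (f d)) :
    X.Hk (N := fun _ => V) 1 n f := by
  classical
  let u := fun d => if h : HB (X.F d).toPre n C (f d) then h.choose else 0
  have e := h.mono fun d h => show (X.F d).CBs (fun x => f d x - u d x) C ∧ Sm I (u d) ∧
    HasCompactSupport (u d) ∧ N2 (X.F d).toPre n (u d) ≤ C 0 by simp only [u, dif_pos h]; exact h.choose_spec
  have h0 : NB (N := fun _ => V) X.F X.l 1 n u := ⟨|C 0|, abs_nonneg _, e.mono fun _ h =>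
    ⟨zero_le_one, h.2.1, h.2.2.1, by simpa using h.2.2.2.trans (le_abs_self _)⟩⟩
  have h1 : X.Hk (N := fun _ => V) 1 n u :=
    ⟨0, le_rfl, fun R _ => have := h0.comap (lw_fst (L := 0 + R)); NB.smul (bk_η' R n) this⟩
  exact ((Hk.of_CBs (e.mono fun _ h => h.1)).add h1).congr' fun _ _ => sub_add_cancel _ _

theorem el_lit {u : T.Sc fun _ => N} (h : X.Hk (N := fun _ => N) 1 k fun d x => u d false (T.ψ d false x))
    (e : X.Ev fun d x => u d true (T.ψ d true x) = u d false (T.ψ d false x)) : T.EL k u :=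
  Pr.of_eq T.lw (fun i => by
    cases i
    exacts [h, h.congr (e.mono fun _ _ => Eq.symm)]) e

theorem u_cb {u : T.Sc fun _ => N} {K : ℝ} (h : ∀ᶠ d in X.l, ∀ i, (T.F d i).CB k (u d i) K) : T.U u :=
  ⟨|K|, abs_nonneg _, h.mono fun _ h i => CB_bound (CB_abs (h i))⟩

theorem u_clm {u : T.Sc fun _ => N} (L : N →L[ℝ] N') (h : T.U u) :
    T.U (N := fun _ => N') fun d i x => L (u d i x) :=
  (U.const (c := fun _ => L) (.const _)).bil (B := fun _ => .id ℝ _) (.const _) h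

theorem u_app {A : T.Sc fun _ => N →L[ℝ] N'} {u : T.Sc fun _ => N} (h : T.U A) (h' : T.U u) :
    T.U (N := fun _ => N') fun d i x => A d i x (u d i x) :=
  h.bil (B := fun _ => .id ℝ _) (.const _) h'

theorem u_comp {A B : T.Sc fun _ => N →L[ℝ] N} (h : T.U A) (h' : T.U B) :
    T.U (N := fun _ => N →L[ℝ] N) fun d i x => A d i x * B d i x :=
  have := h.bil (B := fun _ => ContinuousLinearMap.mul ℝ (N →L[ℝ] N)) (.const _) h'
  this

theorem u_sub {u v : T.Sc fun _ => N} (h : T.U u) (h' : T.U v) :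
    T.U (N := fun _ => N) fun d i x => u d i x - v d i x :=
  (h.add (u_clm (-.id ℝ N) h')).congr (.of_forall fun _ _ => funext fun _ => (sub_eq_add_neg _ _).symm)

theorem u_smul {f : T.Fn} {u : T.Sc fun _ => N} (h : T.U f) (h' : T.U u) :
    T.U (N := fun _ => N) fun d i x => f d i x • u d i x :=
  h.bil (B := fun _ => .lsmul ℝ ℝ) (.const _) h'

theorem u_sum {α : Type} [Fintype α] {u : α → T.Sc fun _ => N} (h : ∀ a, T.U (u a)) :
    T.U (N := fun _ => N) fun d i x => ∑ a, u a d i x := by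
  choose K hK h using h
  exact ⟨∑ a, K a, Finset.sum_nonneg fun a _ => hK a, (eventually_all.2 h).mono fun _ h i y =>
    norm_sum_le_of_le _ fun a _ => h a i y⟩

/-- forget `z` -/
@[reducible] def cn (c : T.CF n₀) : T.CF n₀ := ⟨fun _ _ => 0, c.J, c.p, c.ρ, c.j, c.W, c.Φ, fun _ _ => 0⟩

theorem cg_of {c : T.CF n₀} (hn : 8 ≤ n) (tg : TG T) (hJ : Ub X.l fun d => ‖c.J d‖)
    {F₀ : ∀ d i, Pre (T.S d i).I (T.S d i).M ι} {ht : T.Fn}
    (ub : ∀ᶠ d in X.l, ∀ i, UB (T.S d i).B (F₀ d i) (T.S d i).G ((cn c).c d i) (ht d i) n C)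
    (hW : ∀ a, X.Hk (N := fun _ => En (Fin n₀)) 1 n fun d x => c.W d false a (T.ψ d false x))
    (hΦ : X.Hk (N := c.SV) 1 n fun d x => c.Φ d false (T.ψ d false x))
    (e : X.Ev fun d x => (c.p d true (T.ψ d true x) = c.p d false (T.ψ d false x) ∧
      (∀ a, c.ρ d true a (T.ψ d true x) = c.ρ d false a (T.ψ d false x)) ∧
      c.j d true (T.ψ d true x) = c.j d false (T.ψ d false x)) ∧
      (c.m d true).pg (T.ψ d true x) = (c.m d false).pg (T.ψ d false x) ∧
      (∀ a, c.W d true a (T.ψ d true x) = c.W d false a (T.ψ d false x)) ∧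
      c.Φ d true (T.ψ d true x) = c.Φ d false (T.ψ d false x)) : CG (cn c) n := by
  have W : ∀ a, T.EL (N := fun _ => En (Fin n₀)) n fun d i => c.W d i a := fun a =>
    el_lit (hW a) (e.mono fun _ _ h => h.2.2.1 a)
  have W1 : ∀ a, ∀ᶠ d in X.l, ∀ i, (T.F d i).CB 1 (c.W d i a) (C 1 + √(|C 0| * |C 0|)) := fun a =>
    ub.mono fun _ h i => ((h i).W a).cb (h i).tame (by omega)
  have Φ1 : ∀ᶠ d in X.l, ∀ i, (T.F d i).CB 1 (c.Φ d i) (C 1 + √(|C 0| * |C 0|)) :=
    ub.mono fun _ h i => (h i).Φ.cb (h i).tame (by omega)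
  have W0 := fun a => u_cb (u := fun d i => c.W d i a) (W1 a)
  have WD := fun a b => u_cb (u := fun d i => (T.F d i).D a (c.W d i b))
    ((W1 b).mono fun _ h i => CB_D (h i) a)
  have m := fun a b => u_comp (W0 a) (W0 b)
  have pg : T.EC (N := fun _ => En (Fin n₀ × Fin n₀)) n fun d i => (c.m d i).pg :=
    .fixed (ub.mono fun _ h i => (h i).pg) (e.mono fun _ _ h => h.2.1)
  have g : T.Eng (V := c.SA) (fun d i => (T.F d i).Cb) n c.A :=
    ⟨hn, fun a => (W a).clm (L := fun _ => Wz78.adcL) (.const _), ub.mono fun _ h i => cls_cb (h i).gd.pp.toOk⟩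
  have cu : ∀ a b, T.U (N := fun _ => En (Fin n₀)) fun d i =>
      Wz78.curv (T.S d i).I (T.F d i).e (T.F d i).c (c.W d i) a b := fun a b =>
    have := u_sub ((u_sub (WD a b) (WD b a)).add (u_sub (m a b) (m b a)))
      (u_sum fun l => u_smul (EC.c (k := 0) a b l).u (W0 l))
    this
  have fg : ∀ s, T.U (N := c.SA) fun d i x => (c.m d i).Fg (T.F d i) (c.W d i) x s := fun s =>
    have := u_app (N := HS (Fin n₀)) (N' := HS (Fin n₀)) pg.u (u_clm (hsL (κ := Fin n₀)) (cu s.1 s.2))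
    this
  have nb : ∀ a, T.U (N := c.SV) fun d i => Wz78.nab (T.S d i).I (T.F d i).e (c.W d i) a (c.Φ d i) :=
    fun a =>
      have := (u_cb (u := fun d i => (T.F d i).D a (c.Φ d i)) (Φ1.mono fun _ h i => CB_D (h i) a)).add
        (u_app (W0 a) (u_cb Φ1))
      this
  have Φ : T.EC n c.Φ := ⟨ub.mono fun _ h i => (h i).gd.Φ, u_cb Φ1, el_lit hΦ (e.mono fun _ _ h => h.2.2.2)⟩
  have ρ : ∀ a, T.EC (N := fun _ => En (Fin n₀)) n fun d i => c.ρ d i a := fun a =>
    .fixed (ub.mono fun _ h i => (h i).ρ a) (e.mono fun _ _ h => h.1.2.1 a)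
  have j : T.EC n c.j := .fixed (ub.mono fun _ h i => (h i).j) (e.mono fun _ _ h => h.1.2.2)
  have p : T.EC n c.p := .fixed (ub.mono fun _ h i => (h i).p) (e.mono fun _ _ h => h.1.1)
  refine ⟨⟨hn, ub.mono fun _ h i => (h i).gd, hJ, W, Φ, ρ, j, pg, fun φ hφ _ => ?_⟩, tg, p.el, nb⟩
  have u0 := u_sum fun s => u_smul (N := HS (Fin n₀)) (hφ s).u (fg s)
  have u := g.resU (s := c.fg φ) u0
  exact ⟨u.hk (.of_forall fun _ _ => Mp86.sm_res _ _ _), g.resU u⟩

end gen

variable {Wi : Type} {X : Mf 4} {A κ lam : Type} [Fintype A] [Fintype κ] [Fintype lam]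
  [DecidableEq lam] {M : Mark X A κ} {W : World M} {L : ML M lam} {Λ : Lns W L}
  {A' h : Type} [Fintype A'] [DecidableEq A'] [Fintype h] {r n : ℕ}
  {J : Job Wi Λ A' h r n} {σ : Cel A'} {a : A'}
  {U Up R : Type} [NormedAddCommGroup U] [NormedSpace ℝ U] [NormedAddCommGroup Up]
  [NormedSpace ℝ Up] [NormedAddCommGroup R] [NormedSpace ℝ R]

namespace Ix
open Rsp69 Rsp69.Cx Rsp69.Tw
variable {d : Dat J σ a U Up R} {q₀ : Wi →₀ ℝ} {δ : ℝ} {k : ℕ} (I : Ix d q₀ δ k)
  (O : Clopens (W.Z (J.cf a)).M)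

theorem tQ : Tendsto I.Q I.l atTop :=
  tendsto_atTop_add_const_right _ (-2) ((geo I.ok).la.comp I.tτ)

theorem ev_O2 : (I.cx O).Ev fun e x => x ∈ O ∧ x ∈ O2 d (I.τ e) :=
  ⟨1, zero_le_one, .of_forall fun _ x hx =>
    have := (hx.2 _ rfl).trans_lt (sub_one_lt _); ⟨tm_le this.le, (tm_ge x).trans_lt this⟩⟩

theorem t0 : T0 (I.T O) :=
  ⟨.of_forall fun e x => add_le_add (exp_le_exp.2 (by
    have := I.γ0
    nlinarith [(hS0 x).trans (tm_ge (I := I) (O := O) (e := e) x)])) le_rfl, fun L =>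
    (I.tQ.eventually_ge_atTop L).mono fun e h => ⟨fun _ k => by simp at k, fun _ k => by
      obtain rfl := Option.some.inj k
      exact sub_nonneg.2 h⟩⟩

theorem tg : TG (I.T O) := by
  have c := Cyl58.caps_compact W.toCaps (c := M.c0) fun _ h => h.elim
  refine ⟨fun ν _ => exists_hd ν (χ := I.sc O (fun _ _ => 1) fun e y => 1 - d.χ (I.τ e) y)
    (.of_forall fun e i => ?_) ((I.ev_O2 O).mono fun e x h i => ?_),
    fun u C h => ⟨fun e => u e false, C, h, .of_ev (.of_forall fun _ _ => rfl)⟩,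
    fun a b c f k => (EC.fixed (C := I.C) (.of_forall fun e i => ?_) ((I.ev_O2 O).mono fun e x h =>
      ((I.lit e).g.o a b c f x (O2_sub (I.lit e).ta h.2)).symm)).el,
    fun a b k => (EC.fixed (C := I.C) (.of_forall fun e i => ?_) ((I.ev_O2 O).mono fun e x h =>
      ((I.lit e).g.P a b x (O2_sub (I.lit e).ta h.2)).symm)).el⟩
  · cases i
    · exact ⟨Cb_const _, subset_univ _, by simpa using isClosed_tsupport _⟩
    · exact ⟨Cb_of_hcs (contMDiff_const.sub (sm_χ _)) (.of_compactSpace _),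
        .of_isCompact (isClosed_tsupport _).isCompact fun y hy => by_contra fun k =>
          notMem_tsupport_iff_eventuallyEq.2 ((χ_one (I.lit e).ta k).2.mono fun _ e =>
            sub_eq_zero.2 e.symm) hy⟩
  · cases i
    · rfl
    · show 1 - smoothTransition (d.hX _ (d.φ _ x) - _) = 1
      rw [((I.lit e).ta.φ.2.2.2 x (O2_sub (I.lit e).ta h.2)).1,
        smoothTransition.zero_of_nonpos (sub_nonpos.2 (le_of_lt h.2)), sub_zero]
  · cases i
    exacts [(I.ubS e).o a b c f, (I.ubX e).o a b c f]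
  · cases i
    exacts [(I.ubS e).P a b, (I.ubX e).P a b]

/-- **LEAF CG** -/
theorem cgS : I.CgS := fun O => ⟨cg_of (c := I.c O) (C := I.C) (Nat.succ_le_succ I.hk) (I.tg O)
    (.const ‖d.Jc‖)
    (F₀ := fun e i => Bool.rec d.FS.F0.toPre (d.FX (I.τ e)).F0.toPre i)
    (ht := I.sc O (fun _ => d.hS) fun e => d.hX (I.τ e)) (.of_forall fun e i => by
      cases i
      exacts [I.ubS e, I.ubX e])
    (fun b => hk_hb (.of_forall fun e => (I.ubS e).W b)) (hk_hb (.of_forall fun e => (I.ubS e).Φ))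
    ((I.ev_O2 O).mono fun e x h =>
      have m := (I.lit e).mr I.ok (I.w e)
      ⟨⟨(m.p x h.2).symm, fun b => (m.ρ b x h.2).symm, (m.j x h.2).symm⟩, (m.pg h.2).symm,
        fun b => ((I.lit e).W_eq I.ok _ b x h.2).symm, ((I.lit e).Φ_eq I.ok _ x h.2).symm⟩), I.t0 O⟩

end Ix

end Crest.Agent.X212.Loc45
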