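import Crest.Agent.X212.Loc45.Tm
import Crest.Agent.X212.Gb50.Lb

/-! # Row 212, GL-LOCS (helper45): the pair (face, long neck) and the leaves of `PertS` -/

set_option autoImplicit false
set_option maxHeartbeats 400000
set_option linter.unusedSectionVars false
noncomputable section
open scoped Manifold ContDiff Topology NNReal
open MeasureTheory Set Function Filter Real TopologicalSpace

namespace Crest.Agent.X212.Loc45
open An An.Job M Nd18 Gj67 Gb50 Sob92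
open Gl67 (PP Sid Cm)
open Map77 (Cf)
open Rsp69 (Cx Tw)

section gen
variable {E : Type} [NormedAddCommGroup E] [NormedSpace ℝ E] [FiniteDimensional ℝ E]
  [MeasurableSpace E] [BorelSpace E]
  {HM : Type} [TopologicalSpace HM] {I : ModelWithCorners ℝ E HM} [I.Boundaryless]
  {M : Type} [TopologicalSpace M] [ChartedSpace HM M] [IsManifold I ∞ M]
  [MeasurableSpace M] [T2Space M] [BorelSpace M] [SecondCountableTopology M]
  {ι lam : Type} [Fintype ι] [Fintype lam]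

/-- bounded up to a compactly supported section of bounded Sobolev norm -/
def HB {V : Type} [NormedAddCommGroup V] [NormedSpace ℝ V] (F : Pre I M ι) (n : ℕ) (C : ℕ → ℝ)
    (f : M → V) : Prop :=
  ∃ u, F.CBs (fun x => f x - u x) C ∧ Sm I u ∧ HasCompactSupport u ∧ N2 F n u ≤ C 0

/-- explicit bounds for a configuration in the frame of `G` -/
structure UB (B : Base M ι lam) (F₀ : Pre I M ι) (G : Geo I M ι lam) (c : Cfg M ι lam 0)
    (ht : M → ℝ) (n : ℕ) (C : ℕ → ℝ) : Prop where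
  gd : Dgr80.Gd B G c
  tame : G.F.Tame C
  vol : G.F.IsVol
  p : G.F.CBs c.m.p C
  ρ : ∀ a, G.F.CBs (c.m.ρ a) C
  j : G.F.CBs c.m.j C
  pg : G.F.CBs c.m.pg C
  o : ∀ a b e f, G.F.CBs (B.o a b e f) C
  P : ∀ a b, G.F.CBs (B.P a b) C
  ht : ∀ a, G.F.CBs (G.F.D a ht) C
  W : ∀ a, HB G.F.toPre n C (c.W a)
  Φ : HB G.F.toPre n C c.Φ
  μ : G.F.μ ≤ ENNReal.ofReal (C 0) • F₀.μ
  rev : ∀ (V : Type) [NormedAddCommGroup V] [NormedSpace ℝ V] (k : ℕ) (f : M → V) g A O, IsOpen O →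
    MeasurableSet A → A ⊆ O → Gl67.SmO I O f →
    Gl67.N F₀ g A k f ≤ ENNReal.ofReal (C k) * Gl67.N G.F.toPre g A k f

variable (I M ι lam) in
/-- LEAF UB -/
def UbStmt (h T U Up R : Type) [Fintype h] [NormedAddCommGroup T] [NormedSpace ℝ T]
    [NormedAddCommGroup U] [NormedSpace ℝ U] [NormedAddCommGroup Up] [NormedSpace ℝ Up]
    [NormedAddCommGroup R] [NormedSpace ℝ R] {N : ℕ} (Jc : En (Fin N)) (r : ℕ) : Prop :=
  ∀ (r₀ : ℝ) (C : ℕ → ℝ) (n : ℕ), ∃ C', ∀ (𝔉 : Mod61.Fam I M ι lam T) (s : Sid 𝔉 N Jc U Up R)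
    (c : Cm N r h R), ∀ w ∈ Sec I s.bd.pC, ∀ q : PP T U r h N, s.OK → FU 𝔉 r₀ C → SU s C →
    ‖q.1‖ ≤ r₀ → ‖q.2.1‖ ≤ 1 → Gl67.N 𝔉.F0.toPre 0 univ n w ≤ 1 →
    UB 𝔉.B 𝔉.F0.toPre (𝔉.G q.1) (noz (s.cfg c w q)) s.ht n C'

end gen

variable {Wi : Type} {X : Mf 4} {A κ lam : Type} [Fintype A] [Fintype κ] [Fintype lam]
  [DecidableEq lam] {M : Mark X A κ} {W : World M} {L : ML M lam} {Λ : Lns W L}
  {A' h : Type} [Fintype A'] [DecidableEq A'] [Fintype h] {r n : ℕ}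
  {J : Job Wi Λ A' h r n} {σ : Cel A'} {a : A'}
  {U Up R : Type} [NormedAddCommGroup U] [NormedSpace ℝ U] [NormedAddCommGroup Up]
  [NormedSpace ℝ Up] [NormedAddCommGroup R] [NormedSpace ℝ R]

/-- families of long necks with small configurations -/
structure Ix (d : Dat J σ a U Up R) (q₀ : Wi →₀ ℝ) (δ : ℝ) (k : ℕ) : Type 1 where
  𝒟 : Type
  l : Filter 𝒟
  τ : 𝒟 → d.Ta
  q : 𝒟 → Wi →₀ ℝ
  w : 𝒟 → (W.Z M.c0).M → Cf (Option κ) (Fin d.N)
  p : 𝒟 → PP (Tc σ a) U r h d.N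
  C : ℕ → ℝ
  v : ℝ → ℝ
  γ : ℝ
  S : Finset Wi
  ok : d.OK q₀ δ
  hk : 7 ≤ k
  tτ : Tendsto τ l d.lg
  qS : ∀ e w, w ∉ S → q e w = q₀ w
  tq : ∀ w, Tendsto (fun e => q e w) l (𝓝 (q₀ w))
  lit : ∀ e, Lit d (τ e) (p e).1
  np : ∀ e, ‖p e‖ ≤ 1
  dom : ∀ e, d.s (τ e) (p e).1 ∈ J.dom σ
  ubS : ∀ e, UB (J.B (J.cf a)) d.FS.F0.toPre (GS d (τ e) (p e).1) (noz (cS d (τ e) (w e) (p e)))
    d.hS (k + 1) C
  ubX : ∀ e, UB (J.B M.c0) (d.FX (τ e)).F0.toPre (GX d (τ e) (p e).1)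
    (noz (cX d (τ e) (w e) (p e))) (d.hX (τ e)) (k + 1) C
  vol : ∀ e t R, IsCompact {x | |d.hS x - t| ≤ R} ∧
    (GS d (τ e) (p e).1).F.μ.real {x | |d.hS x - t| ≤ R} ≤ v R
  γ0 : 0 < γ
  wg : ∀ e x, 4 * γ ^ 2 * ∑ i, (GS d (τ e) (p e).1).F.D i d.hS x ^ 2 ≤ 1
  γN : ∀ x, γ ≤ 2 * (J.xs x).N.δ
  act : ∀ x, (∀ e, J.Ac M.c0 (d.s (τ e) (p e).1) (x, none)) ∨
    ∀ e, ¬J.Ac M.c0 (d.s (τ e) (p e).1) (x, none)

variable (J) in
/-- the non-gradient neck terms with index `w` -/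
abbrev nkw (c : M.Cl) (s : A' → ℝ) (w : Wi) : Pt (W.Z c).M (Option κ) (lam ⊕ lam) r n :=
  Pt.dsum (J.Ac c s) fun i hi =>
    fsum (fun T => (J.xs i.1).N.q2 (J.K c i.1 i.2 _ hi) T.1) (J.ν i.1 s • (J.xs i.1).ty w)

variable (J) in
/-- the field term with index `w` -/
abbrev tww (c : M.Cl) (s : A' → ℝ) (w : Wi) : Pt (W.Z c).M (Option κ) (lam ⊕ lam) r n :=
  (tmP (J.B c) (J.G c s).F ((J.tp c).tm (J.tw w))).smul (J.co w s)

variable (J) in
/-- the cut term with index `w` -/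
abbrev tcw (c : M.Cl) (s : A' → ℝ) (i : h) (w : Wi) : Pc r (J.B c) (J.cut c i) := fun x =>
  J.cc i w s • x.tc (J.B c) (J.G c s).F (J.cut c i) ((J.tp c).tc (J.tc i w))

namespace Ix
variable {d : Dat J σ a U Up R} {q₀ : Wi →₀ ℝ} {δ : ℝ} {k : ℕ} (I : Ix d q₀ δ k)
  (O : Clopens (W.Z (J.cf a)).M) (e : I.𝒟)

/-- the parameter -/
abbrev s : A' → ℝ := d.s (I.τ e) (I.p e).1
abbrev GS := Gb50.GS d (I.τ e) (I.p e).1
abbrev GX := Gb50.GX d (I.τ e) (I.p e).1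
abbrev cS := Gb50.cS d (I.τ e) (I.w e) (I.p e)
abbrev cX := Gb50.cX d (I.τ e) (I.w e) (I.p e)
abbrev φ := d.φ (I.τ e)

/-- the end of the band -/
def Q : ℝ := d.la (I.τ e) - 2

/-- the time: `hS` on `O`, beyond the band elsewhere -/
def tm (x : (W.Z (J.cf a)).M) : ℝ := d.hS x + (O : Set _)ᶜ.indicator (fun _ => I.Q e + 1) x

variable {I O e}

theorem Q0 : 0 < I.Q e := sub_pos.2 (I.lit e).ta.la

theorem hS0 (x) : 0 ≤ d.hS x := add_nonneg (Gl67.ka_nonneg _) (Gl67.ka_nonneg _)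

theorem tm_of {x} (hx : x ∈ O) : I.tm O e x = d.hS x := by
  rw [tm, indicator_of_notMem (not_not.2 hx), add_zero]

theorem tm_le {x} (hx : I.tm O e x ≤ I.Q e) : x ∈ O := by_contra fun c => by
  rw [tm, indicator_of_mem (show x ∈ (O : Set _)ᶜ from c)] at hx
  linarith [hS0 (d := d) x]

theorem tm_ge (x) : d.hS x ≤ I.tm O e x :=
  le_add_of_nonneg_right (indicator_nonneg (fun _ _ => by linarith [Q0 (e := e)]) _)

theorem tm_ev (x) : ∃ c, I.tm O e =ᶠ[𝓝 x] fun y => d.hS y + c := by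
  by_cases c : x ∈ O
  · exact ⟨0, (O.isOpen.eventually_mem c).mono fun y hy => (tm_of hy).trans (add_zero _).symm⟩
  · exact ⟨_, (O.isClosed.isOpen_compl.eventually_mem c).mono fun y hy => by
      rw [tm, indicator_of_mem hy]⟩

theorem sm_tm : Sm (W.Z (J.cf a)).I (I.tm O e) := fun x =>
  let ⟨_, h⟩ := tm_ev x
  ((d.sm_hS x).add contMDiffAt_const).congr_of_eventuallyEq h

theorem D_tm (i : Option κ) : (I.GS e).F.D i (I.tm O e) = (I.GS e).F.D i d.hS := funext fun x => by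
  obtain ⟨c, h⟩ := tm_ev (I := I) (O := O) (e := e) x
  refine (dv_congr h).trans ((dv_add ((d.sm_hS x).mdifferentiableAt (by simp))
    mdifferentiableAt_const).trans ?_)
  rw [dv_const]; exact add_zero _

variable (I O e)

/-- the band -/
@[reducible] def cx : Cx (W.Z (J.cf a)).I (W.Z (J.cf a)).M (Option κ) I.𝒟 where
  l := I.l
  F e := (I.GS e).F
  τ := I.tm O
  p _ := none
  q e := some (I.Q e)
  C := I.C
  v := I.v
  tame := .of_forall fun e => (I.ubS e).tame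
  sτ := .of_forall fun e => ⟨sm_tm, fun i => by rw [D_tm]; exact (I.ubS e).ht i⟩
  vol := .of_forall fun e t R ht => by
    have s : {x | |I.tm O e x - t| ≤ R} ⊆ {x | |d.hS x - t| ≤ R} := fun x hx => by
      have k : I.tm O e x - t ≤ R := (abs_le.1 hx).2
      have := tm_of (I := I) (e := e) (tm_le (show I.tm O e x ≤ I.Q e by linarith [ht.2 _ rfl]))
      rwa [mem_ofPred_eq, this] at hx
    have c := (I.vol e t R).1
    exact ⟨c.of_isClosed_subset (isClosed_le (sm_tm.continuous.sub continuous_const).abs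
      continuous_const) s, (measureReal_mono s c.measure_lt_top.ne).trans (I.vol e t R).2⟩

/-- the error of the coefficients -/
def ε : ℝ := ∑ w ∈ I.S, |I.q e w - q₀ w|

/-- the weight -/
def ρ (t : ℝ) : ℝ := exp (-(I.γ / 8 * (I.Q e - t))) + I.ε e

theorem ε0 : 0 ≤ I.ε e := Finset.sum_nonneg fun _ _ => abs_nonneg _

/-- the pair: `false` = the face, `true` = the long neck -/
@[reducible] def T : Tw (I.cx O) (lam ⊕ lam) where
  S e i := Bool.rec ⟨J.B (J.cf a), I.GS e⟩ ⟨J.B M.c0, I.GX e⟩ i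
  ψ e i := Bool.rec (OpenPartialHomeomorph.refl _) (I.φ e) i
  κ := I.γ
  ρ := I.ρ
  rt := ⟨I.γ0, .of_forall fun e x => by simp only [D_tm]; exact I.wg e x,
    ⟨by have := I.γ0; positivity, .of_forall fun e s t => ⟨add_pos_of_pos_of_nonneg (exp_pos _) (I.ε0 e), by
      have := I.γ0
      rw [ρ, ρ, mul_add, ← exp_add]
      exact add_le_add (exp_le_exp.2 (by nlinarith [le_abs_self (s - t)]))
        (le_mul_of_one_le_left (I.ε0 e) (one_le_exp (by positivity)))⟩⟩,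
    .of_forall fun e => ⟨fun _ h => (by simp at h), fun _ h => by
      obtain rfl := Option.some.inj h
      simpa [ρ] using I.ε0 e⟩⟩
  iso := .of_forall fun e => ⟨(I.ubS e).vol, fun i => by
    cases i
    exacts [⟨⟨contMDiffOn_id, contMDiffOn_id, fun a x _ => by
      show mfderiv _ _ id x _ = _; rw [mfderiv_id]; rfl, by simp⟩, (I.ubS e).vol, (I.ubS e).tame⟩,
      ⟨(I.lit e).iso I.ok, (I.ubX e).vol, (I.ubX e).tame⟩]⟩
  src := ⟨1, zero_le_one, .of_forall fun e x hx i => by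
    cases i
    exacts [trivial, O2_sub (I.lit e).ta ((tm_ge x).trans_lt
      ((hx.2 _ rfl).trans_lt (sub_one_lt _)))]⟩

/-- pairs of sections -/
abbrev sc {N : Type} (u : I.𝒟 → (W.Z (J.cf a)).M → N) (v : I.𝒟 → (W.Z M.c0).M → N) :
    (I.T O).Sc fun _ => N := fun e i => Bool.rec (u e) (v e) i

/-- the configurations (without `z`) -/
@[reducible] def c : (I.T O).CF d.N where
  r _ _ := 0
  J _ := d.Jc
  p := I.sc O (fun e => (I.cS e).m.p) fun e => (I.cX e).m.p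
  ρ e i b := I.sc O (fun e => (I.cS e).m.ρ b) (fun e => (I.cX e).m.ρ b) e i
  j := I.sc O (fun e => (I.cS e).m.j) fun e => (I.cX e).m.j
  W e i b := I.sc O (fun e => (I.cS e).W b) (fun e => (I.cX e).W b) e i
  Φ := I.sc O (fun e => (I.cS e).Φ) fun e => (I.cX e).Φ
  z _ _ := 0

/-- the field parts of a pair of terms are close -/
structure Cl (u : I.𝒟 → Pt (W.Z (J.cf a)).M (Option κ) (lam ⊕ lam) r n)
    (v : I.𝒟 → Pt (W.Z M.c0).M (Option κ) (lam ⊕ lam) r n) : Prop where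
  D : (I.T O).EL (N := fun _ => Eu (Fin d.N)) k
    (I.sc O (fun e => (u e).D (I.cS e)) fun e => (v e).D (I.cX e))
  C : (I.T O).EL (N := fun _ => Fm (Option κ × Option κ) (HS (Fin d.N))) k
    (I.sc O (fun e => (u e).C (I.cS e)) fun e => (v e).C (I.cX e))

/-- LEAF CG (helper45) -/
def CgS : Prop := ∀ O, CG (I.c O) (k + 1) ∧ T0 (I.T O)

/-- LEAF GLUE (helper45) -/
def GlS : Prop := ∀ (O : Clopens (W.Z (J.cf a)).M) u v,
  I.Cl (n := n) O u v → I.Cl Oᶜ u v → I.Cl ⊤ u v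

/-- LEAF NK: the neck terms -/
def NkS : Prop := I.Cl ⊤ (fun e => (jb J d.x).τ0 _ (I.s e)) (fun e => J.τ0 _ (I.s e)) ∧
  ∀ w, I.Cl ⊤ (fun e => nkw (jb J d.x) _ (I.s e) w) fun e => nkw J _ (I.s e) w

/-- LEAF TW: the field terms -/
def TwS : Prop := ∀ w, I.Cl ⊤ (fun e => tww (jb J d.x) _ (I.s e) w) (fun e => tww J _ (I.s e) w) ∧
  SP (I.T ⊤) fun e i => bif i then (tww J _ (I.s e) w).S (I.cX e)
    else (tww (jb J d.x) _ (I.s e) w).S (I.cS e)

/-- LEAF SG: the cut terms -/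
def SgS : Prop := ∀ j w, SP (N := L2c (Fin d.N)) (I.T ⊤) fun e i =>
  bif i then sg (J.cut _ j) (J.B _) (tcw J _ (I.s e) j w) (I.cX e) (d.cm.ψ0 j + (I.p e).2.2.2 j)
    else sg (J.cut _ j) (J.B _) (tcw (jb J d.x) _ (I.s e) j w) (I.cS e) (d.cm.ψ0 j + (I.p e).2.2.2 j)

/-- the conclusion (`Ix.fin`, helper45) -/
def Fin : Prop := ∀ t, ∀ η : ℝ≥0, 0 < η → ∀ᶠ e in I.l,
  (d.sS q₀).Q (Gl67.g0 δ) (Iic t) k (fun z =>
      (DS d (I.τ e) q₀ (I.w e) (I.p e) z - DX d (I.τ e) (I.q e) (I.w e) (I.p e) (I.φ e z),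
        CS d (I.τ e) q₀ (I.w e) (I.p e) z - CX d (I.τ e) (I.q e) (I.w e) (I.p e) (I.φ e z))) +
    (Gl67.q2 ((τS d (I.τ e) q₀ (I.p e)).S (I.cS e) - (τX d (I.τ e) (I.q e) (I.p e)).S (I.cX e)) +
      Gl67.q2 (σS d (I.τ e) q₀ (I.w e) (I.p e) - σX d (I.τ e) (I.q e) (I.w e) (I.p e))) ≤ η

end Ix

end Crest.Agent.X212.Loc45
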