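import Crest.Agent.X212.Rsp69.Cyc

/-! # Row 212, GL-LOCS (helper45): necks inside a pair of manifolds; time windows -/

set_option autoImplicit false
set_option linter.unusedSectionVars false
noncomputable section
open scoped Manifold ContDiff Topology InnerProductSpace
open MeasureTheory Set Function Filter Real

namespace Crest.Agent.X212.Loc45
open An Cyf70 Dgr80 Sob92 Nd18 Nka63 Rsp69

/-- seen from `s`, the two intervals agree up to depth `L` -/
def Ag (p q p' q' : Option ℝ) (L s : ℝ) : Prop :=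
  (p = p' ∨ s ∈ Dp p none L ∧ s ∈ Dp p' none L) ∧ (q = q' ∨ s ∈ Dp none q L ∧ s ∈ Dp none q' L)

theorem abs_tf {p q : Option ℝ} {s : ℝ} (h : s ∈ Dp p q 0) : |tf p q s - s| ≤ 1 := by
  have k : ∀ x, 0 ≤ x → 0 ≤ fl x ∧ fl x ≤ 1 := fun x hx => by
    have h1 := smoothTransition.nonneg (2 * x - 1)
    have h2 := smoothTransition.le_one (2 * x - 1)
    rcases le_total x 1 with e | e
    · rw [fl]; constructor <;> nlinarith
    · rw [fl_ge e]; norm_num
  have h1 : ∀ (p : Option ℝ) (g : ℝ → ℝ), (∀ a ∈ p, 0 ≤ g a) →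
      0 ≤ (p.elim 0 fun a => fl (g a)) ∧ (p.elim 0 fun a => fl (g a)) ≤ 1 := fun p g e => by
    cases p with
    | none => simp
    | some a => exact k _ (e a rfl)
  have a := h1 p (fun a => s - a) fun a ha => by linarith [h.1 a ha]
  have b := h1 q (fun b => b - s) fun b hb => by linarith [h.2 b hb]
  rw [tf, abs_le]; constructor <;> linarith [a.1, a.2, b.1, b.2]

namespace Ag
variable {p q p' q' : Option ℝ} {L c s : ℝ} (h : Ag p q p' q' L s)
include h

theorem ct (hc : c + 1 ≤ L) : ct p q c s = ct p' q' c s := by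
  have e : ∀ p q, Nd18.ct p q c s = Nd18.ct p none c s * Nd18.ct none q c s := fun _ _ => by
    simp [Nd18.ct]
  rw [e, e p']
  congr 1
  · exact h.1.elim (· ▸ rfl) fun h => (ct_one (Dp_mono hc h.1)).trans (ct_one (Dp_mono hc h.2)).symm
  · exact h.2.elim (· ▸ rfl) fun h => (ct_one (Dp_mono hc h.1)).trans (ct_one (Dp_mono hc h.2)).symm

theorem tf (hc : 1 ≤ L) : tf p q s = tf p' q' s := by
  have e : ∀ p q, Nd18.tf p q s = Nd18.tf p none s + Nd18.tf none q s - s := fun _ _ => by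
    simp only [Nd18.tf, Option.elim_none]; ring
  rw [e, e p']
  congr 2
  · exact h.1.elim (· ▸ rfl) fun h => (tf_eq (Dp_mono hc h.1)).trans (tf_eq (Dp_mono hc h.2)).symm
  · exact h.2.elim (· ▸ rfl) fun h => (tf_eq (Dp_mono hc h.1)).trans (tf_eq (Dp_mono hc h.2)).symm

theorem dtf (hc : 1 < L) : deriv (Nd18.tf p q) s = deriv (Nd18.tf p' q') s := by
  have e : ∀ {p q p' q' : Option ℝ} {P : Prop}, (P ∨ s ∈ Dp p q L ∧ s ∈ Dp p' q' L) →
      ∀ᶠ t in 𝓝 s, P ∨ t ∈ Dp p q 1 ∧ t ∈ Dp p' q' 1 := fun h => h.elim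
    (fun h => .of_forall fun _ => .inl h) fun h =>
      mem_of_superset (inter_mem (Dp_mem_nhds hc h.1) (Dp_mem_nhds hc h.2)) fun _ => .inr
  exact EventuallyEq.deriv_eq (((e h.1).and (e h.2)).mono fun _ h => Ag.tf h le_rfl)

theorem dp (hc : c ≤ L) (k : s ∈ Dp p' q' c) : s ∈ Dp p q c :=
  ⟨h.1.elim (fun e => e ▸ k.1) fun h => (Dp_mono hc h.1).1,
    h.2.elim (fun e => e ▸ k.2) fun h => (Dp_mono hc h.1).2⟩

end Ag

variable {E3 : Type} [NormedAddCommGroup E3] [NormedSpace ℝ E3] [FiniteDimensional ℝ E3]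
  [MeasurableSpace E3] [BorelSpace E3]
  {H3 : Type} [TopologicalSpace H3] {I3 : ModelWithCorners ℝ E3 H3} [I3.Boundaryless]
  {Y : Type} [TopologicalSpace Y] [ChartedSpace H3 Y] [IsManifold I3 ∞ Y] [T2Space Y]
  [MeasurableSpace Y] [BorelSpace Y] [SecondCountableTopology Y] [CompactSpace Y]
  {κ : Type} [Fintype κ] {lam : Type} [Fintype lam] {D : YD I3 Y κ lam}

section tail
variable {S : Mf (Option κ) lam} {K : Nk D S.B S.G} {w : S.M → ℝ} {g : ℝ → ℝ} {δ c t r b₀ : ℝ}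
  {A : Set ℝ}

variable (K) in
/-- the local part of a window integral -/
def loc (g : ℝ → ℝ) (w : S.M → ℝ) (t : ℝ) (A : Set ℝ) : Y × ℝ → ℝ :=
  {z : Y × ℝ | z.2 ∈ A}.indicator fun z => g (z.2 - t) * w (K.ψ z)

theorem tail (hδ : 0 < δ) (h : Wb K δ b₀ w) (hg : Continuous g)
    (hc : ∀ s, |g s| ≤ c * exp (-(δ * |s|))) (hA : IsClosed A) (hr : A ⊆ Dp K.p K.q 1)
    (hr' : ∀ s ∈ Dp K.p K.q 1, |s - t| ≤ r → s ∈ A) :
    Integrable (loc K g w t A) D.Z.μ ∧
      |∫ x, g (K.τ x - t) • w x ∂S.G.F.μ - ∫ z, loc K g w t A z ∂D.Z.μ|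
        ≤ c * (8 / δ) * (exp (-(δ / 2 * r)) * b₀) := by
  classical
  have c0 : 0 ≤ c := by simpa using (abs_nonneg _).trans (hc 0)
  have hA : MeasurableSet {x | K.tm x ∈ A} := (hA.preimage K.cont).measurableSet
  have k1 : ∀ s r', r' ≤ |s| → |g s| ≤ c * (8 / δ) * exp (-(δ / 2 * r')) * b (δ / 2) s :=
    fun s r' hs => (hc s).trans (by
      rw [show -(δ * |s|) = -(δ / 2 * |s|) + -(δ / 2 * |s|) by ring, exp_add, mul_assoc, mul_assoc,
        mul_left_comm (8 / δ)]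
      gcongr
      exact ker_le hδ s)
  have i1 := h.wi.int_ker (half_pos hδ) hg (fun s => k1 s 0 (abs_nonneg s)) t
  have z : ∀ z : Y × ℝ, z.2 ∉ K.J → loc K g w t A z = 0 := fun z hz =>
    if_neg fun e => hz (Dp_sub one_pos (hr e))
  have e : K.push (loc K g w t A) =
      {x | K.tm x ∈ A}.indicator fun x => g (K.τ x - t) • w x := funext fun x => by
    by_cases hx : x ∈ K.ψ.target
    · simp only [push_of_mem K _ hx, loc, indicator_apply, mem_ofPred_eq, K.snd_symm hx,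
        K.ψ.right_inv hx]
      split_ifs with h1
      exacts [by rw [K.τ_eq (hr h1), smul_eq_mul], rfl]
    · exact (push_of_notMem K _ hx).trans (if_neg fun e => hx (K.dp_sub one_pos (hr e))).symm
  refine ⟨(integrableOn_iff_integrable_of_support_subset fun x hx => by_contra fun e =>
    hx (z x fun e' => e (K.mem_src.2 e'))).1 ((integrable_pull_iff (iso_symm K.iso)).1
      (show Integrable (K.push _) _ from e ▸ i1.indicator hA)), ?_⟩
  rw [← integral_push' K z, e, ← integral_sub i1 (i1.indicator hA), ← mul_assoc]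
  rw [← Real.norm_eq_abs]
  refine (norm_integral_le_of_norm_le ((h.wi.norm.int (half_pos hδ) t).const_mul
    (c * (8 / δ) * exp (-(δ / 2 * r)))) (.of_forall fun x => ?_)).trans ?_
  · have p := b_pos (half_pos hδ) (K.τ x - t)
    simp only [indicator_apply, mem_ofPred_eq]
    split_ifs with h1
    · rw [sub_self, norm_zero, smul_eq_mul]; positivity
    · rw [sub_zero, norm_smul, smul_eq_mul, ← mul_assoc]
      by_cases hx : x ∈ K.dp 1
      · refine mul_le_mul_of_nonneg_right (k1 _ _ ?_) (norm_nonneg _)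
        rw [K.τ_eq hx]; exact (not_le.1 fun e => h1 (hr' _ hx e)).le
      · simp [h.z x hx]
  · rw [integral_const_mul]
    exact mul_le_mul_of_nonneg_left (h.bd t) (by positivity)

theorem tdiff {S' : Mf (Option κ) lam} {K' : Nk D S'.B S'.G} {w' : S'.M → ℝ} (hδ : 0 < δ)
    (h : Wb K δ b₀ w) (h' : Wb K' δ b₀ w') (hg : Continuous g)
    (hc : ∀ s, |g s| ≤ c * exp (-(δ * |s|))) (hr : Dp K.p K.q 1 ⊆ Dp K'.p K'.q 1)
    (hr' : ∀ s ∈ Dp K'.p K'.q 1, |s - t| ≤ r → s ∈ Dp K.p K.q 1) {A : ℝ} (hA : 0 ≤ A)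
    (e : ∀ z : Y × ℝ, z.2 ∈ Dp K.p K.q 1 → |z.2 - t| ≤ r →
      |w (K.ψ z) - w' (K'.ψ z)| ≤ A * exp (δ / 2 * |z.2 - t|)) :
    |∫ x, g (K.τ x - t) • w x ∂S.G.F.μ - ∫ x, g (K'.τ x - t) • w' x ∂S'.G.F.μ| ≤
      c * (8 / δ) * (A * vY D + 2 * (exp (-(δ / 2 * r)) * b₀)) := by
  classical
  have c0 : 0 ≤ c := by simpa using (abs_nonneg _).trans (hc 0)
  have cl : IsClosed (Dp K.p K.q 1 ∩ {s | |s - t| ≤ r}) :=
    isClosed_Dp.inter (isClosed_le (by fun_prop) continuous_const)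
  obtain ⟨i1, h1⟩ := tail hδ h hg hc cl inter_subset_left fun s a b => ⟨a, b⟩
  obtain ⟨i2, h2⟩ := tail hδ h' hg hc cl (inter_subset_left.trans hr) fun s a b => ⟨hr' s a b, b⟩
  have ib := (integrable_b (half_pos hδ)).comp_sub_right t
  have z : ∀ s ∉ D.nk.J, b (δ / 2) (s - t) = 0 := fun s hs => (hs (nk_J D ▸ mem_univ s)).elim
  have h3 : |∫ z, loc K g w t (Dp K.p K.q 1 ∩ {s | |s - t| ≤ r}) z ∂D.Z.μ -
      ∫ z, loc K' g w' t (Dp K.p K.q 1 ∩ {s | |s - t| ≤ r}) z ∂D.Z.μ| ≤ c * (8 / δ) * A * vY D := by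
    rw [← integral_sub i1 i2, ← Real.norm_eq_abs]
    refine (norm_integral_le_of_norm_le ((integrable_tm D.nk ib z).const_mul (c * (8 / δ) * A))
      (.of_forall fun x => ?_)).trans_eq ?_
    · have p := b_pos (half_pos hδ) (x.2 - t)
      simp only [loc, indicator_apply, mem_ofPred_eq]
      split_ifs with h1
      · rw [← mul_sub, norm_mul]
        refine (mul_le_mul (hc _) (e x h1.1 h1.2) (abs_nonneg _) (by positivity)).trans ?_
        rw [mul_mul_mul_comm, ← exp_add, show -(δ * |x.2 - t|) + δ / 2 * |x.2 - t| =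
          -(δ / 2 * |x.2 - t|) by ring, mul_right_comm c (8 / δ), mul_assoc (c * A)]
        exact mul_le_mul_of_nonneg_left (ker_le hδ _) (by positivity)
      · rw [sub_self, norm_zero]
        exact mul_nonneg (by positivity) p.le
    · rw [integral_const_mul]
      refine congrArg _ ((integral_tm D.nk z).trans ?_)
      rw [integral_sub_right_eq_self (b (δ / 2)) t, integral_b (half_pos hδ), smul_eq_mul, mul_one]
  rw [abs_le] at *
  constructor <;> linarith [h1.1, h1.2, h2.1, h2.2, h3.1, h3.2]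

end tail

variable {E : Type} [NormedAddCommGroup E] [NormedSpace ℝ E] [FiniteDimensional ℝ E]
  [MeasurableSpace E] [BorelSpace E]
  {HM : Type} [TopologicalSpace HM] {I : ModelWithCorners ℝ E HM} [I.Boundaryless]
  {M : Type} [TopologicalSpace M] [ChartedSpace HM M] [IsManifold I ∞ M]
  [MeasurableSpace M] [T2Space M] [BorelSpace M] [SecondCountableTopology M] {𝒟 : Type*}

open Rsp69.Cx Rsp69.Tw

theorem cbs_mul {ι : Type} [Fintype ι] {F : Pre I M ι} {f g : M → ℝ} {A C : ℕ → ℝ} (h : F.CBs f A)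
    (h' : F.CBs g C) : F.CBs (fun x => f x * g x)
      fun k => 2 ^ (k + 1) * ‖ContinuousLinearMap.mul ℝ ℝ‖ * |A k| * |C k| :=
  ⟨h.1.smul h'.1, fun k => CB_bil (.mul ℝ ℝ) h.1 h'.1 (h.2 k) (h'.2 k)⟩

theorem bk_cut {ι : Type} [Fintype ι] {P : 𝒟 → Pre I M ι} {l : Filter 𝒟} {S S' : 𝒟 → Set M}
    {χ w f : 𝒟 → M → ℝ} {k : ℕ} (hχ : Bk (N := fun _ => ℝ) P l S 1 k χ)
    (hw : ∀ᶠ d in l, ∀ x ∈ S d, 0 ≤ w d x ∧ (x ∉ S' d → χ d =ᶠ[𝓝 x] 0))
    (h : Bk (N := fun _ => ℝ) P l (fun d => S d ∩ S' d) w k f) :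
    Bk (N := fun _ => ℝ) P l S w k fun d x => χ d x • f d x := by
  obtain ⟨K, hK, h⟩ := (hχ.mono (.of_forall fun _ => inter_subset_left)).smulR h
  refine ⟨K, hK, (h.and hw).mono fun d h x hS => ?_⟩
  by_cases hx : x ∈ S' d
  · exact h.1 x ⟨hS, hx⟩
  · have e : (fun y => χ d y • f d y) =ᶠ[𝓝 x] fun _ => 0 :=
      ((h.2 x hS).2 hx).mono fun y hy => by simp [hy]
    exact ⟨(h.2 x hS).1, sa_congr contMDiffAt_const e.symm,
      .of_ev_zero k e (mul_nonneg hK (h.2 x hS).1)⟩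

/-- pairs with literal backgrounds -/
structure TG {ι : Type} [Fintype ι] {X : Cx I M ι 𝒟} (T : Tw X lam) : Prop where
  hd : ∀ (ν : Type) [Fintype ν], Nonempty (T.HD ν)
  pb : ∀ (u : T.Fn) C, (∀ᶠ d in X.l, (T.F d false).CBs (u d false) C) → ∃ u₀ : 𝒟 → M → ℝ, ∃ C',
    (∀ᶠ d in X.l, (X.F d).CBs (u₀ d) C') ∧ X.Ev fun d x => u d false (T.ψ d false x) = u₀ d x
  o : ∀ a b c e k, T.EL (N := fun _ => ℝ) k fun d i => (T.S d i).B.o a b c e
  P : ∀ a b k, T.EL (N := fun _ => ℝ) k fun d i => (T.S d i).B.P a b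

variable {X : Cx I M (Option κ) 𝒟} {T : Tw X lam}

variable (T D) in
/-- pairs of necks which agree on the band -/
structure NQ where
  K : ∀ d i, Nk D (T.S d i).B (T.S d i).G
  cor : ∀ L, X.Ev fun d x => (∀ i, T.ψ d i x ∉ (K d i).ψ.target) ∨ ∃ z, (∀ i,
    z ∈ (K d i).ψ.source ∧ T.ψ d i x = (K d i).ψ z) ∧
      Ag (K d true).p (K d true).q (K d false).p (K d false).q L z.2
  sub : ∀ᶠ d in X.l, Dp (K d true).p (K d true).q 1 ⊆ Dp (K d false).p (K d false).q 1
  lip : ∀ᶠ d in X.l, ∀ x, ∀ z ∈ (K d false).ψ.source, ∀ z' ∈ (K d false).ψ.source,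
    T.ψ d false x = (K d false).ψ z →
      ∃ x', T.ψ d false x' = (K d false).ψ z' ∧ |X.τ d x' - X.τ d x| ≤ |z'.2 - z.2|

namespace NQ
variable (P : NQ D T) {N : Type} [NormedAddCommGroup N] [NormedSpace ℝ N] {k n : ℕ}

theorem psh (L : ℝ) {u : Option ℝ → Option ℝ → Y × ℝ → N}
    (hu : ∀ p q p' q' z, Ag p q p' q' L z.2 → u p q z = u p' q' z) : X.Ev fun d x =>
      (P.K d true).push (u (P.K d true).p (P.K d true).q) (T.ψ d true x) =
        (P.K d false).push (u (P.K d false).p (P.K d false).q) (T.ψ d false x) :=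
  (P.cor L).mono fun d x h => h.elim
    (fun h => (push_of_notMem _ _ (h _)).trans (push_of_notMem _ _ (h _)).symm)
    fun ⟨z, h, e⟩ => by
      rw [(h _).2, (h _).2, push_ψ _ _ (h _).1, push_ψ _ _ (h _).1, hu _ _ _ _ z e]

theorem ext {f : Y → N} (hf : Sm I3 f) : T.EC (N := fun _ => N) k fun d i => (P.K d i).ext f :=
  let ⟨_, h⟩ := cbs_ext D hf
  .fixed (.of_forall fun d i => h (P.K d i)) (by
    simp only [Nk.ext_eq]
    exact P.psh 2 (u := fun p q z => ct p q 1 z.2 • f z.1) fun _ _ _ _ _ e => by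
      rw [e.ct (by norm_num)])

theorem cut {c : ℝ} (hc : 0 < c) :
    T.EC (N := fun _ => ℝ) k fun d i x => (P.K d i).cut c ((P.K d i).tm x) :=
  let ⟨_, h⟩ := cbs_cut D
  .fixed (.of_forall fun d i => h (P.K d i) c hc) (by
    have e := fun d i => congrFun ((P.K d i).push_time (h := (P.K d i).cut c) hc fun _ => ct_zero)
    simp only [← e]
    exact P.psh (c + 1) (u := fun p q z => ct p q c z.2) fun _ _ _ _ _ e => e.ct le_rfl)

theorem dτ : T.Cd k fun d i => (P.K d i).τ := fun a =>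
  let ⟨_, h⟩ := cbs_Dτ D
  .fixed (.of_forall fun d i => h (P.K d i) a) (by
    cases a with
    | none =>
      have e := fun d i => congrFun ((P.K d i).push_time (h := deriv (tf (P.K d i).p (P.K d i).q))
        one_half_pos fun _ => dtf_zero (P.K d i).len)
      simp only [Nk.D_τ_none, ← e]
      exact P.psh 2 (u := fun p q z => deriv (tf p q) z.2) fun _ _ _ _ _ e => e.dtf one_lt_two
    | some a => exact .of_ev (.of_forall fun _ _ => by simp only [Nk.D_τ_some, Pi.zero_apply]))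

theorem cdx {f : Y → ℝ} (hf : Sm I3 f) : T.Cd k fun d i => (P.K d i).ext f := fun a =>
  let ⟨_, h⟩ := cbs_D_fn D (g := some f) (by rintro _ ⟨⟩; exact hf)
  ⟨.of_forall fun d i => ⟨_, h (P.K d i) a⟩, ⟨_, abs_nonneg _, .of_forall fun d i =>
    CB_bound (CB_abs ((h (P.K d i) a).2 0))⟩, (P.ext hf).el.D a⟩

/-- densities with bounded windows -/
def WK (δ : ℝ) (w : T.Fn) : Prop := ∃ b₀, ∀ᶠ d in X.l, ∀ i, Wb (P.K d i) δ b₀ (w d i)

variable {P} {δ : ℝ} {w : T.Fn}

theorem WK.of_U (hδ : 0 < δ) (h : T.U w) (hq : ∀ᶠ d in X.l, ∀ i, Continuous (w d i))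
    (h0 : ∀ d i, ∀ x ∉ (P.K d i).dp 1, w d i x = 0) : P.WK δ w :=
  let ⟨_, _, hu⟩ := h
  ⟨_, (hu.and hq).mono fun d h i => .of_bd _ hδ (h.2 i).aestronglyMeasurable (h0 d i) (h.1 i)⟩

/-- the cut-off of the time functions -/
abbrev θ (P : NQ D T) : T.Fn := fun d i => (T.F d i).D none (P.K d i).τ

/-- **the time step** -/
theorem win (hδ : T.κ ≤ 2 * δ) (h : T.EL 4 w) (hw : P.WK δ w) (s : ℝ) :
    T.EC (N := fun _ => ℝ) k fun d i x => P.θ d i x *
      wn (T.S d i).G.F.μ (P.K d i).τ δ (w d i) ((P.K d i).τ x + s) := by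
  have γ0 := T.rt.κ0
  have δ0 : 0 < δ := by linarith
  obtain ⟨b₀, hw⟩ := hw
  obtain ⟨c, -, hc⟩ := cbs_bd D
  obtain ⟨c', hc'⟩ := cbs_Dτ D
  have h1 := hw.mono fun d h i => cbs_mul (hc' (P.K d i) none) (hc (P.K d i) _ _ ((h i).bdd δ0 s))
  refine ⟨h1.mono fun _ h i => ⟨_, h i⟩, ⟨_, abs_nonneg _, h1.mono fun _ h i =>
    CB_bound (CB_abs ((h i).2 0))⟩, fun i => hk_of_CB (T := T) (u := fun d i x => P.θ d i x *
      wn (T.S d i).G.F.μ (P.K d i).τ δ (w d i) ((P.K d i).τ x + s))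
      (h1.mono fun _ h => ⟨(h i).1, (h i).2 k⟩), ?_⟩
  obtain ⟨L₁, hL₁, K₀, hK₀, h⟩ := (show X.Hk T.ρ (0 + 4) _ from h.d).bd
  obtain ⟨L₂, hL₂, e⟩ := ((P.cor 1).and T.rel).and T.rel.nhds
  choose L₃ hL₃ hD using fun a => ((P.dτ (k := k + 4) a).el.b false).bd
  have p3 := fun a => Finset.single_le_sum (fun a _ => hL₃ a) (Finset.mem_univ a)
  obtain ⟨L, hL, l1, l2, l3⟩ : ∃ L, 0 ≤ L ∧ L₁ ≤ L ∧ L₂ ≤ L ∧ ∀ a, L₃ a ≤ L :=
    ⟨L₁ + L₂ + ∑ a, L₃ a, by linarith [p3 none, hL₃ none], by linarith [p3 none, hL₃ none],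
      by linarith [p3 none, hL₃ none], fun a => by linarith [p3 a]⟩
  replace e := e.mono fun d h x (hx : x ∈ X.bd L d) => h x (Dp_mono l2 hx)
  have h2 := ev_lw.1 (T.rt.rad_in (L := L) (R := 0) hL le_rfl)
  have c0 := fun j => cb_nonneg δ j
  have v0 := vY_nonneg D
  have hD' := fun a => (hD a).mono (S' := X.bd (2 * L + 0)) (.of_forall fun _ _ hx =>
    Dp_mono (by linarith [l3 a]) hx)
  have e' := e.mono fun d h x (hx : x ∈ X.bd (2 * L + 0) d) => h x (Dp_mono (by linarith) hx)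
  have iso := T.iso
  refine (Bd.hk T.lw ⟨2 * L + 0, by positivity, bk_cut (hD' none)
    (S' := fun d => T.ψ d false ⁻¹' (P.K d false).dp (1 / 2)) ?_
    (Bk.time (σ := fun d x => (P.K d false).τ (T.ψ d false x)) k
      (e'.mono fun d h x hx => ((h x hx.1).1.2.2 false).1.sm ((h x hx.1).1.2.2 false).2.1
        ((P.K d false).sm_τ _))
      (fun a => ((hD' a).congr (e'.mono fun d h x hx => (h x hx).2.mono fun y h =>
        ((h.2 false).1.D (h.2 false).2.1 a (.of_forall fun _ => rfl)).symm)).mono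
          (.of_forall fun _ => inter_subset_left))
      (g := fun d t => wn (T.S d true).G.F.μ (P.K d true).τ δ (w d true) (t + s) -
        wn (T.S d false).G.F.μ (P.K d false).τ δ (w d false) (t + s))
      (K := (∑ j ∈ Finset.range (k + 1), cb δ j) * δ * (8 / δ) * (K₀ * vY D + 2 * |b₀|) *
        exp (δ / 2 * (1 + |s|))) ?_)⟩).congr ((P.cor 2).mono fun d x h => ?_)
  · filter_upwards [e', T.lw.2] with d h lw x hx
    refine ⟨(lw 0 _).1.le, fun k => ?_⟩
    filter_upwards [((T.ψ d false).continuousAt ((h x hx).1.2.2 false).2.1).eventually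
      ((P.K d false).isClosed_dp.isOpen_compl.mem_nhds k)] with y hy
    exact (congrFun (P.K d false).D_τ_none _).trans (dtf_zero (P.K d false).len hy)
  · filter_upwards [hw, h, h2, T.lw.2, P.sub, P.lip, e] with d hw h h2 lw sub lip e
    have sm := fun i => ((hw i).bdd δ0 s).1
    refine ⟨(sm _).sub (sm _), fun x hx => ⟨(lw 0 _).1.le, fun j hj => ?_⟩⟩
    obtain ⟨r1, r2, r3⟩ := h2 _ hx.1
    have hb := fun i => wi_half δ0 (hw i).wi
    have x1 := (P.K d false).dp_sub one_half_pos hx.2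
    have x2 := abs_tf (Dp_mono (by norm_num) hx.2)
    obtain ⟨t, ht⟩ : ∃ t, t = (P.K d false).τ (T.ψ d false x) + s := ⟨_, rfl⟩
    have k1 : ∀ z : Y × ℝ, z.2 ∈ Dp (P.K d false).p (P.K d false).q 1 →
        |z.2 - t| ≤ rad T.κ T.ρ 0 (d, X.τ d x) - (1 + |s|) → z.2 ∈ Dp (P.K d true).p (P.K d true).q 1 ∧
          |w d true ((P.K d true).ψ z) - w d false ((P.K d false).ψ z)| ≤
            K₀ * (exp (δ / 2 * (1 + |s|)) * T.ρ d (X.τ d x)) * exp (δ / 2 * |z.2 - t|) :=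
      fun z a b => by
      have z1 := (P.K d false).mem_src.2 (Dp_sub one_pos a)
      obtain ⟨y, y1, y2⟩ := lip x _ ((P.K d false).ψ.map_target x1) z z1
        ((P.K d false).ψ.right_inv x1).symm
      have y3 : |X.τ d y - X.τ d x| ≤ |z.2 - t| + (1 + |s|) := by
        rw [(P.K d false).snd_symm x1] at y2
        refine y2.trans ((abs_sub_le _ t _).trans (add_le_add le_rfl ?_))
        rw [ht, add_sub_right_comm]
        exact (abs_add_le _ _).trans (add_le_add x2 le_rfl)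
      have y4 : y ∈ X.bd L d := Dp_near r1 (by linarith)
      obtain ⟨z', y5, y6⟩ := (e y y4).1.1.resolve_left fun k =>
        k false (y1 ▸ (P.K d false).ψ.map_source z1)
      obtain rfl := (P.K d false).ψ.injOn z1 (y5 false).1 (y1.symm.trans (y5 false).2)
      refine ⟨y6.dp le_rfl a, ?_⟩
      rw [← (y5 true).2, ← y1, mul_assoc, mul_right_comm, ← exp_add]
      refine ((h y (Dp_mono l1 y4)).2.2.bd).trans (mul_le_mul_of_nonneg_left
        ((lw _ (X.τ d x)).2.trans (mul_le_mul_of_nonneg_right (exp_le_exp.2 ?_) r2.le)) hK₀)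
      nlinarith [abs_nonneg (X.τ d y - X.τ d x)]
    have e := tdiff δ0 (hw true) (hw false) (continuous_const.mul (continuous_bd δ j))
      (bd_le_exp δ0 j) sub (fun s' a b => (k1 (((P.K d false).ψ.symm (T.ψ d false x)).1, s') a b).1)
      (by positivity) fun z a b => (k1 z (sub a) b).2
    rw [iteratedDeriv_fun_sub ((sm _).of_le (by exact_mod_cast le_top)).contDiffAt
      ((sm _).of_le (by exact_mod_cast le_top)).contDiffAt, iteratedDeriv_comp_add_const,
      iteratedDeriv_comp_add_const, (hb _).iteratedDeriv_wn δ0, (hb _).iteratedDeriv_wn δ0]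
    subst ht
    refine e.trans ?_
    have r0 : 0 ≤ rad T.κ T.ρ 0 (d, X.τ d x) := le_max_left _ _
    have e1 : exp (-(δ / 2 * (rad T.κ T.ρ 0 (d, X.τ d x) - (1 + |s|)))) * b₀ ≤
        exp (δ / 2 * (1 + |s|)) * T.ρ d (X.τ d x) * |b₀| := by
      refine (mul_le_mul_of_nonneg_left (le_abs_self _) (exp_pos _).le).trans
        (mul_le_mul_of_nonneg_right (le_trans ?_ (mul_le_mul_of_nonneg_left r3 (exp_pos _).le))
          (abs_nonneg _))
      rw [← exp_add]
      exact exp_le_exp.2 (by nlinarith)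
    calc _ ≤ (∑ j ∈ Finset.range (k + 1), cb δ j) * δ * (8 / δ) *
          ((K₀ * vY D + 2 * |b₀|) * (exp (δ / 2 * (1 + |s|)) * T.ρ d (X.τ d x))) := by
          have := c0 j
          refine (mul_le_mul_of_nonneg_left (by linarith) (by positivity)).trans
            (mul_le_mul_of_nonneg_right ?_ (by positivity))
          gcongr
          exact Finset.single_le_sum (fun j _ => c0 j) (Finset.mem_range.2 (Nat.lt_succ_of_le hj))
      _ = _ := by ring
  · have z := fun i (k : T.ψ d i x ∉ (P.K d i).ψ.target) => show P.θ d i (T.ψ d i x) = 0 from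
      (congrFun (P.K d i).D_τ_none _).trans (dtf_zero (P.K d i).len
        fun e => k ((P.K d i).dp_sub one_half_pos e))
    rcases h with h | ⟨z, h, e⟩
    · simp only [z _ (h _), zero_mul, smul_eq_mul, sub_self]
    · have e1 := fun i => show (P.K d i).tm (T.ψ d i x) = z.2 by
        rw [(h i).2, (P.K d i).tm_ψ z (h i).1]
      simp only [θ, Nk.D_τ_none, Nk.τ, e1, e.dtf one_lt_two, e.tf one_le_two, smul_eq_mul, mul_sub]

end NQ

end Crest.Agent.X212.Loc45
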