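import Crest.Agent.X212.Loc45.Nq

/-! # Row 212, GL-LOCS (helper45): neck terms of two configurations which are close on a band -/

set_option autoImplicit false
set_option linter.unusedSectionVars false
noncomputable section
open scoped Manifold ContDiff Topology InnerProductSpace
open MeasureTheory Set Function Filter Real

namespace Crest.Agent.X212.Loc45
open An Cyf70 Dgr80 Sob92 Nd18 Nka63 Rsp69 Rsp69.Cx Rsp69.Tw
open Cyc79 (Cy Sep)

variable {E : Type} [NormedAddCommGroup E] [NormedSpace ℝ E] [FiniteDimensional ℝ E]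
  [MeasurableSpace E] [BorelSpace E]
  {HM : Type} [TopologicalSpace HM] {I : ModelWithCorners ℝ E HM} [I.Boundaryless]
  {M : Type} [TopologicalSpace M] [ChartedSpace HM M] [IsManifold I ∞ M]
  [MeasurableSpace M] [T2Space M] [BorelSpace M] [SecondCountableTopology M] {𝒟 : Type*}
  {lam : Type} [Fintype lam] {n₀ j k n : ℕ}

section cg
variable {ι : Type} [Fintype ι] {X : Cx I M ι 𝒟} {T : Tw X lam}

theorem compF {α : Type} [Fintype α] {g : (α → ℝ) → ℝ} (hg : ContDiff ℝ ∞ g) (hj : 8 ≤ j)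
    {u : α → T.Fn} (h : ∀ a, T.EC j (u a)) :
    T.EC (N := fun _ => ℝ) j fun d i x => g fun a => u a d i x := by
  classical
  exact EC.comp (hg.comp (PiLp.continuousLinearEquiv 2 ℝ fun _ : α => ℝ).contDiff) hj
    ((EC.sum Finset.univ fun a _ => (h a).clm (L := fun _ => sgl ℝ a) (.const _)).congr'
      fun _ _ _ => sum_sgl _)

/-- good pairs of configurations -/
structure CG (c : T.CF n₀) (j : ℕ) : Prop where
  o : c.OK (fun _ _ => univ) j
  tg : TG T
  p : T.EL j c.p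
  nb : ∀ a, T.U (N := c.SV) fun d i => Wz78.nab (T.S d i).I (T.F d i).e (c.W d i) a (c.Φ d i)

namespace CG
variable {c : T.CF n₀} (h : CG c j)
include h

theorem h7 : 7 ≤ j := h.o.h7

theorem om : T.EL (N := fun _ => En (Fin n₀)) j fun d i => (c.m d i).om (T.S d i).B :=
  have m : ∀ {u v : T.Sc fun _ => En (Fin n₀)}, T.EL j u → T.EL j v →
      T.EL (N := fun _ => En (Fin n₀)) j fun d i x => u d i x * v d i x := fun hu hv =>
    hu.bil h.h7 le_rfl (B := fun _ => ContinuousLinearMap.mul ℝ _) (.const _) hv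
  have r := fun a => (h.o.ρ a).el
  (EC.const (c := fun _ => (1 / 24 : ℝ)) (.const _)).el.smul h.h7 le_rfl
    (.sum _ fun a _ => .sum _ fun a' _ => .sum _ fun a'' _ => .sum _ fun a''' _ =>
      (h.tg.o a a' a'' a''' j).smul h.h7 le_rfl (m (m (m (r _) (r _)) (r _)) (r _)))

theorem pp : T.EL (N := fun _ => En (Fin n₀)) j fun d i => (c.m d i).pp (T.S d i).B :=
  (EC.const (c := fun _ => (1 / 2 : ℝ)) (.const _)).el.smul h.h7 le_rfl (h.p.sub h.om)

theorem pm : T.EL (N := fun _ => En (Fin n₀)) j fun d i => (c.m d i).pm (T.S d i).B :=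
  (EC.const (c := fun _ => (1 / 2 : ℝ)) (.const _)).el.smul h.h7 le_rfl (h.p.add h.om)

theorem sd (s t : ι × ι) : T.EL (N := fun _ => ℝ) j fun d i x => (T.S d i).B.sd x s t :=
  have hf := fun {f : T.Fn} (hf : T.EL j f) =>
    (EC.const (c := fun _ => (1 / 2 : ℝ)) (.const _)).el.smul h.h7 le_rfl hf
  have m := fun a b a' b' => (h.tg.P a b j).smul h.h7 le_rfl (h.tg.P a' b' j)
  (hf ((hf ((m s.1 t.1 s.2 t.2).sub (m s.1 t.2 s.2 t.1))).add
    (hf (h.tg.o s.1 s.2 t.1 t.2 j)))).congr' fun d i z => by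
      simp only [Base.sd, Base.a2, Base.st, smul_eq_mul]
      ring

theorem p2 {u : T.Sc c.S2} (hu : T.EL j u) :
    T.EL (N := c.S2) j fun d i x => (c.m d i).p2 (T.S d i).B x (u d i x) :=
  have e := EL.toLp (P := HS (Fin n₀)) fun s => EL.sum Finset.univ fun t _ => (h.sd s t).smul h.h7 le_rfl
    (h.o.pg.el.app h.h7 le_rfl
      (hu.clm (L := fun _ => PiLp.proj 2 (fun _ => HS (Fin n₀)) t) (.const _)))
  e.congr' fun _ _ _ => PiLp.ext fun _ => (Wz78.idx_apply ..).symm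

theorem nt {g : T.Fn} (hg : T.Cd 7 g) :
    T.EC (N := c.SV) 7 fun d i => nt (T.F d i) (c.W d i) (g d i) (c.Φ d i) :=
  .sum _ fun a _ => (hg a).smul le_rfl le_rfl ⟨h.o.gd.mono fun _ h i => Cb.nab (h i).W (h i).Φ a,
    h.nb a, (h.o.Φ.el.of_le h.o.hn).nab h.h7 h.h7 h.o.W a⟩

end CG
end cg

variable {E3 : Type} [NormedAddCommGroup E3] [NormedSpace ℝ E3] [FiniteDimensional ℝ E3]
  [MeasurableSpace E3] [BorelSpace E3]
  {H3 : Type} [TopologicalSpace H3] {I3 : ModelWithCorners ℝ E3 H3} [I3.Boundaryless]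
  {Y : Type} [TopologicalSpace Y] [ChartedSpace H3 Y] [IsManifold I3 ∞ Y] [T2Space Y]
  [MeasurableSpace Y] [BorelSpace Y] [SecondCountableTopology Y] [CompactSpace Y]
  {κ : Type} [Fintype κ] {D : YD I3 Y κ lam} {X : Cx I M (Option κ) 𝒟} {T : Tw X lam}

namespace NQ
variable (P : NQ D T)

theorem cd : ∀ {g : Option (Y → ℝ)}, OF I3 g → T.Cd j fun d i => (P.K d i).fn g
  | none, _ => P.dτ
  | some f, hg => P.cdx (hg f rfl)

theorem lt : ∀ {t : YL Y}, t.OK I3 → T.LtY j fun d i => (P.K d i).lt t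
  | .mul _, ht => .mul (P.ext ht)
  | .cl _, ht => .cl (P.cd ht)
  | .im, _ => .im
  | .G, _ => .G

theorem la : ∀ {t : La Y}, laOK I3 t → T.LaY j fun d i => (P.K d i).la t
  | .mul _, ht => .mul (P.ext ht)
  | .G, _ => .G

theorem sw {u : List (YL Y)} (hu : ∀ t ∈ u, YL.OK I3 t) :
    Fa (T.LtY j) fun d i => u.map (P.K d i).lt := .list fun t ht => P.lt (hu t ht)

theorem las {u : List (La Y)} (hu : ∀ t ∈ u, laOK I3 t) :
    Fa (T.LaY j) fun d i => u.map (P.K d i).la := .list fun t ht => P.la (hu t ht)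

theorem sepT (hT : TG T) {f f' : Y → ℝ} (h : Sep D.F.toPre f f') :
    T.SepT n (fun d i => (P.K d i).ext f) fun d i => (P.K d i).ext f' := by
  obtain ⟨h1, h2, φ, h3, h4, h5⟩ := h
  have h6 : D.F.Cb fun y => (3 : ℝ) • φ y := Cb_smul (Cb_const _) h3
  obtain ⟨C, hC⟩ := cbs_ex2 D h6.choose_spec.1
  obtain ⟨u, C', hu, hu'⟩ := hT.pb (fun d i => ex2 (P.K d i) fun y => (3 : ℝ) • φ y) C
    (.of_forall fun d => hC (P.K d false))
  have e := fun d i x (hx : (P.K d i).χ x ≠ 0) => ex2_eq (P.K d i) (fun y => (3 : ℝ) • φ y)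
    (mem_O_of_χ _ hx)
  refine ⟨P.ext h1.choose_spec.1, fun d i => ex2 (P.K d i) fun y => (3 : ℝ) • φ y,
    u, fun k => max (C k) (C' k), ⟨P.ext h2.choose_spec.1,
      hu.mono fun d hC' => ⟨⟨hC'.1, fun k => CB_mono (hC'.2 k) (le_max_right _ _)⟩, fun i =>
        ⟨⟨(hC (P.K d i)).1, fun k => CB_mono ((hC (P.K d i)).2 k) (le_max_left _ _)⟩,
          fun x hx => ?_⟩⟩, (hu'.and (P.psh 2 (u := fun p q z => deriv (tf p q) z.2 • (3 : ℝ) • φ z.1)
            fun _ _ _ _ _ e => by rw [e.dtf one_lt_two])).mono fun d z h i => ?_⟩,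
    .of_forall fun d i x hx => ?_⟩
  · rw [e d i x (left_ne_zero_of_smul hx), smul_eq_mul]
    linarith [h5 _ (right_ne_zero_of_smul hx)]
  · cases i
    exacts [h.1, h.2.trans h.1]
  · beta_reduce
    rw [e d i x (left_ne_zero_of_smul hx), smul_eq_mul]
    linarith [h4 _ (right_ne_zero_of_smul hx)]

theorem cutF {c : ℝ} (hc : 1 ≤ c) {α : Type} [Fintype α] {g : (α → ℝ) → ℝ} (hg : ContDiff ℝ ∞ g)
    (hj : 8 ≤ j) {u : α → T.Fn} (h : ∀ a, T.EC (N := fun _ => ℝ) j fun d i x => P.θ d i x * u a d i x) :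
    T.EC (N := fun _ => ℝ) j fun d i x => (P.K d i).cut c ((P.K d i).tm x) * g fun a => u a d i x :=
  ((P.cut (by linarith)).mul (by omega) (compF hg hj h)).congr' fun d i x => by
    by_cases e : x ∈ O (P.K d i) c
    · simp only [θ, Nk.D_τ_none, dtf_one' (O_mono _ hc e), one_mul]
    · simp only [show (P.K d i).cut c ((P.K d i).tm x) = 0 from ct_zero' e, zero_mul]

/-- the hypotheses on a pair of configurations -/
structure NH (_P : NQ D T) (c : T.CF n₀) (N : ND Y lam) (j : ℕ) : Prop extends CG c j where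
  nd : N.OK D
  γ : T.κ ≤ 2 * N.δ

namespace NH
variable {P} {c : T.CF n₀} {N : ND Y lam} (h : NH P c N j)
include h

theorem nc {e : Cy Y} (he : e.OK D.F) : c.SedS j fun d i => ((P.K d i).cyc e).sed (T.F d i) :=
  let ⟨H⟩ := h.tg.hd (Fin n₀ × Fin n₀)
  h.o.cyc H (P.sepT h.tg he.sep) (P.sepT h.tg he.sep.symm)
    (P.las fun t ht => laOK_of (he.w t ht)) (P.las fun t ht => laOK_of (he.w' t ht))

/-- the densities are cut-off densities of the calculus -/
theorem den (k : N.J) : ∃ e, c.DenS j e ∧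
    ∀ d i, (N.dg (P.K d i)).d k = dcut (P.K d i).χ (e d i) := by
  have o := h.o
  rcases k with k | k | k
  · have := h.nd.d0 k
    cases e : N.d0 k with
    | sw u v =>
      rw [e] at this
      exact ⟨_, o.denSw o.pk_one (P.sw this.1) (P.sw this.2), fun i y => by
        simp only [ND.dg, Sum.elim_inl, e]; rfl⟩
    | cy d w d' w' =>
      rw [e] at this
      exact ⟨_, .sed o.h7 (o.sedWd (h.nc this.1) (P.las this.2.1))
        (o.sedWd (h.nc this.2.2.1) (P.las this.2.2.2)), fun i y => by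
        simp only [ND.dg, Sum.elim_inl, e]; rfl⟩
  · obtain ⟨h1, h2, h3⟩ := h.nd.d2 k
    exact ⟨_, o.denSw (o.pk_re (P.ext h1)) (P.sw h2) (P.sw h3), fun _ _ => rfl⟩
  · obtain ⟨h1, h2, h3⟩ := h.nd.d2 k
    exact ⟨_, o.denSw (o.pk_im (P.ext h1)) (P.sw h2) (P.sw h3), fun _ _ => rfl⟩

theorem winC {w : T.Fn} (hw : T.EC 7 w) (h0 : ∀ d i, ∀ x ∉ (P.K d i).dp 1, w d i x = 0) (s : ℝ) :
    T.EC (N := fun _ => ℝ) j fun d i x => P.θ d i x *
      wn (T.S d i).G.F.μ (P.K d i).τ N.δ (w d i) ((P.K d i).τ x + s) :=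
  win h.γ (hw.el.of_le (by omega)) (.of_U h.nd.δ0 hw.u
    (hw.q.mono fun _ h i => (Cb.sm (h i)).continuous) h0) s

theorem β (k : N.J) : T.EC (N := fun _ => ℝ) j fun d i x =>
    (N.dg (P.K d i)).β (T.F d i) (c.c d i) k ((P.K d i).τ x) * (P.K d i).χ x := by
  choose e d1 d2 using h.den
  have sm : ContDiff ℝ ∞ fun v => fderiv ℝ (fun x => N.φ (N.cx x)) v (Pi.single k 1) :=
    ((h.nd.sm.comp (contDiff_cx N)).fderiv_right (m := ∞) le_rfl).clm_apply contDiff_const
  have h1 := P.cutF (c := 3) (by norm_num) sm h.o.hn fun k => h.winC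
    (w := fun d i => ((N.dg (P.K d i)).d k).h (c.c d i))
    ((((P.cut one_pos).mul h.h7 (d1 k).h).of_le h.h7).congr' fun i y x => by rw [d2]; rfl)
    (fun i y x hx => by rw [d2]; exact mul_eq_zero_of_left ((P.K i y).χ_zero hx) _) 0
  refine (P.cutF le_rfl (g := fun v : Unit → ℝ => (vY D)⁻¹ * v ()) (by fun_prop) h.o.hn
    fun _ => h.winC (h1.of_le h.h7) (fun i y x hx =>
      mul_eq_zero_of_left (ct_zero fun e => hx (Dp_mono (by norm_num) e)) _) 0).congr'
    fun i y x => ((cv_eq (P.K i y) N.δ _ x).trans ?_).symm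
  simp only [add_zero, (P.K i y).cut_τ (show (1 : ℝ) ≤ 3 by norm_num)]
  exact mul_comm _ _

theorem gA : T.EL (N := c.S1) j fun d i =>
    (N.dg (P.K d i)).gA (T.F d i) (c.c d i) := EL.sum Finset.univ fun k _ =>
  let ⟨_, d1, d2⟩ := h.den k
  (d1.gA _ (h.β k)).congr' fun i y x => by rw [d2]; rfl

theorem gP : T.EL (N := c.SV) j fun d i =>
    (N.dg (P.K d i)).gP (T.F d i) (c.c d i) := EL.sum Finset.univ fun k _ =>
  let ⟨_, d1, d2⟩ := h.den k
  (d1.gP _ (h.β k)).congr' fun i y x => by rw [d2]; rfl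

theorem q1D : T.EL (N := c.SV) j fun d i => (N.q1 (n := n) (P.K d i)).D (c.c d i) :=
  have e1 := h.pp.app (N := c.SV) (N' := c.SV) h.h7 le_rfl h.gP
  have e2 := fun a => (h.o.ρ a).el.app (N := c.SV) (N' := c.SV) h.h7 le_rfl e1
  have e := (EL.sum Finset.univ fun a _ => (P.dτ a).el.smul h.h7 le_rfl (e2 a)).neg
  e.congr' fun _ _ _ => rfl

theorem q1C : T.EL (N := c.S2) j fun d i => (N.q1 (n := n) (P.K d i)).C (c.c d i) :=
  have e := EL.toLp fun s : Option κ × Option κ => (P.dτ s.1).el.smul h.h7 le_rfl (h.gA.clm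
    (L := fun _ => PiLp.proj 2 (fun _ => HS (Fin n₀)) s.2) (.const _))
  have e' := (EC.const (c := fun _ => (-8 : ℝ)) (.const _)).el.smul h.h7 le_rfl (h.p2 e)
  e'

theorem wew (s : ℝ) : T.EC (N := fun _ => ℝ) j fun d i x => P.θ d i x *
    wn (T.S d i).G.F.μ (P.K d i).τ N.δ (N.ew (P.K d i) (c.c d i)) ((P.K d i).τ x + s) := by
  have χ := fun {j} => P.cut (k := j) (c := 4) (by norm_num)
  have h1 := EC.sum Finset.univ fun k _ =>
    have := h.o.cvY χ (fun _ _ _ k => (k trivial).elim) P.dτ (P.cdx (h.nd.sy k))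
    this.inner h.h7 this
  have h2 := χ.smul le_rfl le_rfl (h.nt P.dτ)
  have h3 := χ.mul le_rfl (EC.add (h1.of_le h.h7) (h2.inner le_rfl h2))
  simp only [real_inner_self_eq_norm_sq] at h3
  exact h.winC h3 (fun d i x hx =>
    mul_eq_zero_of_left (ct_zero fun e => hx (Dp_mono (by norm_num) e)) _) s

theorem tc {C : YTC} (hC : ContDiff ℝ ∞ C.k) {e : ℝ} (he : 1 ≤ e) :
    T.EC (N := fun _ => ℝ) j fun d i x => (P.K d i).cut e ((P.K d i).tm x) *
      (N.tc (P.K d i) C).val (T.F d i) (P.K d i).τ N.δ (c.c d i) ((P.K d i).τ x) :=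
  P.cutF he (hC.comp (contDiff_pi.2 fun i => contDiff_nr.comp (contDiff_apply ℝ ℝ i))) h.o.hn
    fun i => h.wew (C.s i)

theorem tl {u : List (YL Y ⊕ YTC)} (hu : tlOK I3 u) : Fa (T.LtY j) fun d i =>
    (u.map (N.tl (P.K d i))).map (Dgr80.tl (T.F d i) (P.K d i).τ N.δ (c.c d i)) := by
  simp only [List.map_map]
  refine .list fun t ht => ?_
  have := hu t ht
  rcases t with t | C
  · exact P.lt this
  · exact .mul (h.tc this.1 le_rfl)

theorem ta {u : List (La Y ⊕ YTC)} (hu : taOK I3 u) : Fa (T.LaY j) fun d i =>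
    (u.map (N.ta (P.K d i))).map (Dgr80.ta (T.F d i) (P.K d i).τ N.δ (c.c d i)) := by
  simp only [List.map_map]
  refine .list fun t ht => ?_
  have := hu t ht
  rcases t with t | C
  · exact P.la this
  · exact .mul (h.tc this.1 le_rfl)

variable {t : YT Y} (hT : t.OK I3)
include hT

theorem oc : T.EC (N := fun _ => ℝ) j fun d i => N.oc (P.K d i) t (c.c d i) :=
  (h.tc (contDiff_out (C := t.C) (by cases t <;> exact hT.1.1)) (e := 3) (by norm_num)).congr'
    fun i y x => by rw [ND.oc, (P.K i y).cut_τ (by norm_num)]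

theorem tD : T.EL (N := c.SV) j fun d i =>
    (c.c d i).tD (T.S d i).B (T.F d i) (N.tm (P.K d i) (c.c d i) n t) := by
  cases t with
  | lin C u => exact h.pm.app h.h7 le_rfl (h.o.sw (h.tl hT.2)).el
  | _ => exact EL.zero

theorem tC : T.EL (N := c.S2) j fun d i =>
    (c.c d i).tC (T.S d i).B (T.F d i) (N.tm (P.K d i) (c.c d i) n t) := by
  cases t with
  | lin C u => exact EL.zero
  | ad C g u v l =>
    obtain ⟨-, h1, h2, h3, h4⟩ := hT
    exact h.p2 (h.o.wedge P.dτ (P.cdx h1) (h.o.wdA (h.ta h4) (h.o.qY (h.tl h2) (h.tl h3))).el)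
  | cv C g f g1 g2 l =>
    obtain ⟨-, h1, h2, h3, h4, h5⟩ := hT
    exact h.p2 (h.o.wedge P.dτ (P.cdx h1) (h.o.wdA (h.ta h5)
      (h.o.cvY (P.ext h2) (fun _ _ _ k => (k trivial).elim) (P.cd h3) (P.cd h4))).el)

theorem q2D : T.EL (N := c.SV) j fun d i => (N.q2 (n := n) (P.K d i) t).D (c.c d i) :=
  have e := (h.oc hT).el.smul h.h7 le_rfl (EL.nrm (P := Eu (Fin n₀)) h.o.hn (h.tD (n := n) hT))
  e

theorem q2C : T.EL (N := c.S2) j fun d i => (N.q2 (n := n) (P.K d i) t).C (c.c d i) :=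
  have e := (h.oc hT).el.smul h.h7 le_rfl
    (EL.nrm (P := Fm (Option κ × Option κ) (HS (Fin n₀))) h.o.hn (h.tC (n := n) hT))
  e

end NH
end NQ

end Crest.Agent.X212.Loc45
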