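import Crest.Agent.X212.Loc45.Nr
import Crest.Agent.X212.An.Syn

/-! # Row 212, GL-LOCS (helper45): field terms, scalars and cut terms of a pair -/

set_option autoImplicit false
set_option linter.unusedSectionVars false
noncomputable section
open scoped Manifold ContDiff Topology InnerProductSpace
open MeasureTheory Set Function Filter Real

namespace Crest.Agent.X212.Loc45
open An Dgr80 Sob92 Nd18 Nka63 Rsp69 Rsp69.Cx Rsp69.Tw Wrd81

variable {E : Type} [NormedAddCommGroup E] [NormedSpace ℝ E] [FiniteDimensional ℝ E]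
  [MeasurableSpace E] [BorelSpace E]
  {HM : Type} [TopologicalSpace HM] {I : ModelWithCorners ℝ E HM} [I.Boundaryless]
  {M : Type} [TopologicalSpace M] [ChartedSpace HM M] [IsManifold I ∞ M]
  [MeasurableSpace M] [T2Space M] [BorelSpace M] [SecondCountableTopology M] {𝒟 : Type*}
  {lam : Type} [Fintype lam] {n₀ j k n r : ℕ} {ι : Type} [Fintype ι] {X : Cx I M ι 𝒟} {T : Tw X lam}
  {N : Type} [NormedAddCommGroup N] [NormedSpace ℝ N]
  {V : Type} [NormedAddCommGroup V] [InnerProductSpace ℝ V]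

variable (T) in
/-- the time `0` is the bottom of the band and lies deep inside -/
structure T0 : Prop where
  low : ∀ᶠ d in X.l, ∀ x, T.ρ d 0 ≤ T.ρ d (X.τ d x)
  deep : ∀ L, ∀ᶠ d in X.l, 0 ∈ X.In L d

variable (T) in
/-- close pairs of vectors -/
def SP (c : 𝒟 → Bool → N) : Prop :=
  ∃ K, 0 ≤ K ∧ ∀ᶠ d in X.l, (∀ i, ‖c d i‖ ≤ K) ∧ ‖c d true - c d false‖ ≤ K * T.ρ d 0

variable (T) in
/-- test data -/
def Ps (u : T.Sc fun _ => N) : Prop := ∃ (v : 𝒟 → M → N) (C : ℕ → ℝ) (R : ℝ), ∀ᶠ d in X.l,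
  (X.F d).CBs (v d) C ∧ (∀ x, R < |X.τ d x| → v d x = 0) ∧ ∀ i, u d i = pull (T.ψ d i).symm (v d)

namespace T0
variable (h : T0 T)
include h

theorem ev {P : 𝒟 → M → Prop} (e : X.Ev P) (R : ℝ) : ∀ᶠ d in X.l, ∀ x ∈ X.W R (d, 0), P d x :=
  let ⟨L, _, e⟩ := e
  (e.and (h.deep (L + R))).mono fun _ e x hx => e.1 x (W_bd (z := (_, 0)) e.2 hx)

theorem ec {c : 𝒟 → Bool → N} (e : SP T c) : T.EC (N := fun _ => N) k fun d i _ => c d i :=
  let ⟨K, hK, e⟩ := e
  ⟨.of_forall fun _ _ => Cb_const _, ⟨K, hK, e.mono fun _ e i _ => e.1 i⟩,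
    fun i => Hk.const ⟨K, hK, e.mono fun _ e => e.1 i⟩, Bd.hk T.lw ⟨0, le_rfl, K, hK,
      ((e.and h.low).and T.lw.2).mono fun _ e x _ => ⟨(e.2 0 _).1.le, contMDiffAt_const,
        (PB.const _ _ x).mono (e.1.1.2.trans (mul_le_mul_of_nonneg_left (e.1.2 x) hK))⟩⟩⟩

/-- pointwise bounds near the bottom -/
theorem bd {u : T.Sc fun _ => V} (e : T.EL 4 u) (R : ℝ) : ∃ K, 0 ≤ K ∧ ∀ᶠ d in X.l,
    ∀ x ∈ X.W R (d, 0), ‖u d true (T.ψ d true x) - u d false (T.ψ d false x)‖ ≤ K * T.ρ d 0 := by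
  obtain ⟨L, hL, K, hK, e⟩ := (show X.Hk T.ρ (0 + 4) _ from e.d).bd
  refine ⟨K * exp (T.κ / 8 * R), by positivity,
    ((h.ev ⟨L, hL, e⟩ R).and T.lw.2).mono fun d e x hx => (e.1 x hx).2.2.bd.trans ?_⟩
  rw [mul_assoc]
  have := T.rt.κ0
  exact mul_le_mul_of_nonneg_left ((e.2 _ 0).2.trans (mul_le_mul_of_nonneg_right
    (exp_le_exp.2 (mul_le_mul_of_nonneg_left hx (by positivity))) (e.2 0 0).1.le)) hK

theorem pt {u : T.Sc fun _ => V} (e : T.EC 4 u) {x : 𝒟 → M} {R : ℝ}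
    (hx : ∀ᶠ d in X.l, |X.τ d (x d)| ≤ R) : SP T fun d i => u d i (T.ψ d i (x d)) :=
  let ⟨K, hK, h1⟩ := h.bd e.el R; let ⟨K', hK', h2⟩ := e.u
  ⟨K + K', by positivity, (((h1.and h2).and hx).and T.lw.2).mono fun d e =>
    ⟨fun i => (e.1.1.2 i _).trans (by linarith), (e.1.1.1 _ (by simpa [W] using e.1.2)).trans
      (mul_le_mul_of_nonneg_right (by linarith) (e.2 0 0).1.le)⟩⟩

theorem vol (R : ℝ) : ∀ᶠ d in X.l, IsCompact (X.W R (d, 0)) ∧ (X.F d).μ.real (X.W R (d, 0)) ≤ X.v R :=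
  (X.vol.and (h.deep R)).mono fun _ e => e.1 0 R e.2

theorem cbs {u : T.Sc fun _ => N} (e : Ps T u) : ∃ C, (∀ᶠ d in X.l, ∀ i, (T.F d i).CBs (u d i) C) ∧
    X.Ev fun d x => u d true (T.ψ d true x) = u d false (T.ψ d false x) := by
  obtain ⟨v, C, R, e⟩ := e
  refine ⟨fun k => |C k|, ?_, (T.src.and (.of_ev (P := fun _ _ => _) (e.mono fun _ e _ => e))).mono
    fun d x e => ?_⟩
  · filter_upwards [e, h.ev T.src R, h.vol R, T.iso, X.sτ] with d e s w o t i
    have a : Adm (T.ψ d i).symm (tsupport (v d)) :=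
      (Adm.of_isCompact (φ := (T.ψ d i).symm) w.1 fun x hx => s x hx i).mono (isClosed_tsupport _)
        (closure_minimal (fun x hx => by_contra fun k => hx (e.2.1 x (by simpa [W] using k)))
          w.1.isClosed)
    rw [e.2.2]
    exact ⟨sm_pull (iso_symm (o.2 i).1) e.1.1 a, fun k => CB_pull (iso_symm (o.2 i).1) k e.1.1 a (e.1.2 k)⟩
  · have := fun i => show u d i (T.ψ d i x) = v d x by
      rw [e.2.2.2, pull_of_mem (φ := (T.ψ d i).symm) ((T.ψ d i).map_source (e.1 i)),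
        (T.ψ d i).left_inv (e.1 i)]
    rw [this, this]

theorem ps {u : T.Sc fun _ => N} (e : Ps T u) : T.EC k u :=
  let ⟨_, h1, h2⟩ := h.cbs e; .fixed h1 h2

theorem cd {u : T.Fn} (e : Ps T u) : T.Cd k u := fun a =>
  let ⟨C, h1, _⟩ := h.cbs e
  ⟨h1.mono fun _ e i => Cb_D ⟨C, e i⟩ a, ⟨_, abs_nonneg _, h1.mono fun _ e i =>
    CB_bound (CB_abs (CB_D ((e i).2 1) a))⟩, (h.ps e).el.D a⟩

/-- integrals over the supports of test data -/
theorem int [CompleteSpace V] {s : T.Sc fun _ => N} (e : Ps T s) {u : T.Sc fun _ => V}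
    (hu : T.EC 4 u) (h0 : ∀ d i y, s d i y = 0 → u d i y = 0) :
    SP T fun d i => ∫ y, u d i y ∂(T.F d i).μ := by
  obtain ⟨v, C, R, e⟩ := e
  obtain ⟨K, hK, h1⟩ := h.bd hu.el R
  obtain ⟨K', hK', h2⟩ := hu.u
  refine ⟨(K + K') * |X.v R|, by positivity, ?_⟩
  filter_upwards [e, h.ev T.src R, h.vol R, T.iso, h1, h2, hu.q, T.lw.2] with d e s w o h1 h2 q lw
  have m := w.1.measurableSet
  have e1 : ∀ i, ∫ y, u d i y ∂(T.F d i).μ = ∫ x in X.W R (d, 0), u d i (T.ψ d i x) ∂(X.F d).μ :=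
    fun i => by
    rw [← setIntegral_eq_integral_of_forall_compl_eq_zero (s := (T.ψ d i).target) fun y hy =>
      h0 _ _ _ (by rw [e.2.2, pull_of_notMem (φ := (T.ψ d i).symm) hy]), ← integral_pull' (o.2 i).1,
      ← setIntegral_eq_integral_of_forall_compl_eq_zero (s := X.W R (d, 0)) fun x hx => ?_]
    · exact setIntegral_congr_fun m fun x hx => pull_of_mem (s x hx i) _
    · by_cases k : x ∈ (T.ψ d i).source
      · rw [pull_of_mem k]
        refine h0 _ _ _ ?_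
        rw [e.2.2, pull_of_mem (φ := (T.ψ d i).symm) ((T.ψ d i).map_source k), (T.ψ d i).left_inv k]
        exact e.2.1 x (by simpa [W] using hx)
      · exact pull_of_notMem k _
  have e2 : ∀ {f : M → V} {c : ℝ}, 0 ≤ c → (∀ x ∈ X.W R (d, 0), ‖f x‖ ≤ c) →
      ‖∫ x in X.W R (d, 0), f x ∂(X.F d).μ‖ ≤ c * |X.v R| := fun c0 hf =>
    (norm_setIntegral_le_of_norm_le_const w.1.measure_lt_top hf).trans
      (mul_le_mul_of_nonneg_left (w.2.trans (le_abs_self _)) c0)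
  have e3 : ∀ i, IntegrableOn (fun x => u d i (T.ψ d i x)) (X.W R (d, 0)) (X.F d).μ := fun i =>
    ((Cb.sm (q i)).continuous.comp_continuousOn
      ((T.ψ d i).continuousOn.mono fun x hx => s x hx i)).integrableOn_compact w.1
  have p := (lw 0 0).1
  simp only [e1]
  refine ⟨fun i => (e2 hK' fun x _ => h2 i _).trans (by gcongr; linarith), ?_⟩
  rw [← integral_sub (e3 _) (e3 _)]
  refine (e2 (by positivity) h1).trans ?_
  rw [mul_right_comm]
  gcongr
  linarith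

end T0

theorem ec_list {α : Type} {u : α → T.Sc fun _ => N} : ∀ {L : List α}, (∀ a ∈ L, T.EC k (u a)) →
    T.EC (N := fun _ => N) k fun d i x => (L.map fun a => u a d i x).sum
  | [], _ => .const (c := fun _ => 0) (.const _)
  | a :: _, h => (h a List.mem_cons_self).add (ec_list fun b hb => h b (List.mem_cons_of_mem a hb))

theorem cd_isq : ContDiff ℝ ∞ fun t : ℝ => (√(1 + t * smoothTransition (t + 1)))⁻¹ := by
  have p : ∀ t : ℝ, 0 < 1 + t * smoothTransition (t + 1) := fun t => by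
    have h1 := smoothTransition.nonneg (t + 1)
    have h2 := smoothTransition.le_one (t + 1)
    rcases le_or_gt (t + 1) 0 with e | e
    · rw [smoothTransition.zero_of_nonpos e]; norm_num
    · rcases le_total 0 t with k | k
      · positivity
      · nlinarith [mul_nonneg (neg_nonneg.2 k) (sub_nonneg.2 h2)]
  exact ((contDiff_const.add (contDiff_id.mul (smoothTransition.contDiff.comp
    (contDiff_id.add contDiff_const)))).sqrt fun t => (p t).ne').inv fun t => (sqrt_pos.2 (p t)).ne'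

variable {E₀ : Type} [NormedAddCommGroup E₀] [NormedSpace ℝ E₀] [FiniteDimensional ℝ E₀]
  [MeasurableSpace E₀] [BorelSpace E₀]
  {H₀ : Type} [TopologicalSpace H₀] {I₀ : ModelWithCorners ℝ E₀ H₀} [I₀.Boundaryless]
  {M₀ : Type} [TopologicalSpace M₀] [ChartedSpace H₀ M₀] [IsManifold I₀ ∞ M₀]
  [MeasurableSpace M₀] [T2Space M₀] [BorelSpace M₀] [SecondCountableTopology M₀]

/-- the configurations with the scalars `z` -/
abbrev cz (c : T.CF n₀) (z : 𝒟 → Bool → EuclideanSpace ℂ (Fin r)) (d : 𝒟) (i : Bool) :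
    Cfg (T.S d i).M ι lam r := ⟨c.m d i, c.W d i, c.Φ d i, z d i⟩

variable (I₀) in
/-- transported terms -/
structure TH (c : T.CF n₀) (z : 𝒟 → Bool → EuclideanSpace ℂ (Fin r)) (Ω : Set M₀)
    (t : ∀ d i, Tp M₀ (T.S d i).M lam lam) (j : ℕ) : Prop extends CG c j, T0 T where
  z : ∀ a, SP T fun d i => z d i a
  f : ∀ g, Tf I₀ Ω g → Ps T fun d i => (t d i).f g
  s : ∀ g, Tv I₀ Ω g → Ps T fun d i => (t d i).s g

namespace TH
variable {c : T.CF n₀} {z : 𝒟 → Bool → EuclideanSpace ℂ (Fin r)} {Ω : Set M₀}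
  {t : ∀ d i, Tp M₀ (T.S d i).M lam lam} (h : TH I₀ c z Ω t j)

theorem lt_z (d : 𝒟) (i : Bool) : (cz c z d i).lt (T.F d i) = (c.c d i).lt (T.F d i) :=
  funext fun t => by cases t <;> rfl

theorem la_z (d : 𝒟) (i : Bool) : (cz c z d i).la (T.F d i) = (c.c d i).la (T.F d i) :=
  funext fun t => by cases t <;> rfl

include h

theorem fc {g : M₀ → ℝ} (hg : Tf I₀ Ω g) : T.EC k fun d i => (t d i).f g := h.toT0.ps (h.f g hg)

theorem fd {g : M₀ → ℝ} (hg : Tf I₀ Ω g) : T.Cd k fun d i => (t d i).f g := h.toT0.cd (h.f g hg)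

theorem lts {u : SW M₀} (hu : SwIn I₀ Ω u) : Fa (T.LtY j) fun d i => u.map (t d i).lt :=
  .list fun a ha => by
    have := hu a ha
    cases a
    exacts [.mul (h.fc this), .cl (h.fd this), .im, .G]

theorem las {u : List (La M₀)} (hu : LlIn I₀ Ω u) : Fa (T.LaY j) fun d i => u.map (t d i).la :=
  .list fun a ha => by
    have := hu a ha
    cases a
    exacts [.mul (h.fc this), .G]

theorem sw {u : SW M₀} (hu : SwIn I₀ Ω u) :
    T.EC (N := c.SV) j fun d i => (cz c z d i).sw (T.F d i) (u.map (t d i).lt) := by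
  simp only [Cfg.sw, lt_z]
  exact h.o.sw (h.lts hu)

theorem wa {u : List (La M₀)} (hu : LlIn I₀ Ω u) {s : T.Sc c.SA} (hs : T.EC j s) :
    T.EC (N := c.SA) j fun d i => wd ((cz c z d i).la (T.F d i)) (s d i) (u.map (t d i).la) := by
  simp only [la_z]
  exact h.o.wdA (h.las hu) hs

theorem q {u v : T.Sc c.SV} (hu : T.EC j u) (hv : T.EC j v) :
    T.EC (N := c.SA) j fun d i x => (c.m d i).q x (u d i x) (v d i x) :=
  h.o.pg.app h.h7 le_rfl (hu.bil h.h7 le_rfl (B := fun _ => rkL (Fin n₀)) (.const _) hv)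

theorem aw {ξ : AW M₀} (hξ : AwIn I₀ Ω ξ) :
    T.EC (N := c.SA) j fun d i => (cz c z d i).aw (T.F d i) ((t d i).aw ξ) := by
  obtain ⟨s, l⟩ := ξ
  refine h.wa hξ.2 ?_
  cases s
  exacts [h.q (h.sw hξ.1.1) (h.sw hξ.1.2),
    h.o.cvY (h.fc hξ.1.1) (fun _ _ _ k => (k trivial).elim) (h.fd hξ.1.2.1) (h.fd hξ.1.2.2)]

theorem js {s : M₀ → Eu lam} (hs : Tv I₀ Ω s) {u : T.Sc c.SV} (hu : T.EC j u) :
    T.EC (N := c.SV) j fun d i x => c.j d i x ((t d i).s s x) (u d i x) :=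
  (h.o.j.app h.h7 le_rfl (h.toT0.ps (h.s s hs))).app h.h7 le_rfl hu

theorem sg {g : Sg M₀ lam} (hg : SgIn I₀ Ω g) :
    SP T fun d i => (cz c z d i).sg (T.F d i) ((t d i).sg g) := by
  have a := h.js hg.1 (h.sw hg.2.1)
  have b := h.sw hg.2.2
  have e := ((a.inner h.h7 b).clm (L := fun _ => Complex.ofRealCLM) (.const _)).sub
    ((a.inner h.h7 (b.clm (L := c.J) h.o.J)).clm
      (L := fun _ => (ContinuousLinearMap.id ℝ ℝ).smulRight Complex.I) (.const _))
  exact h.toT0.int (h.s _ hg.1) ((e.of_le (h.h7.trans' (by omega))).congr' fun _ _ _ =>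
    Complex.ext (by simp [hm, Tp.sg]) (by simp [hm, Tp.sg])) fun _ _ _ k =>
      Complex.ext (by simp [hm, Tp.sg, k]) (by simp [hm, Tp.sg, k])

theorem co {e : Co M₀ lam r} (he : CoIn I₀ Ω e) :
    T.EC (N := fun _ => ℂ) j fun d i _ => (cz c z d i).co (T.F d i) ((t d i).co e) := by
  cases e with
  | z a => exact h.toT0.ec (h.z a)
  | s g L =>
    have n := fun g (hg : SgIn I₀ Ω g) => (h.toT0.ec (k := j) (h.sg hg)).inner h.h7 (h.toT0.ec (h.sg hg))
    refine ((((n g he.1).add (ec_list fun g hg => n g (he.2 g hg))).comp cd_isq h.o.hn).smul h.h7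
      le_rfl (h.toT0.ec (h.sg he.1))).congr' fun d i _ => ?_
    simp only [real_inner_self_eq_norm_sq, Cfg.co, Tp.co, List.map_map, comp_def]
    rw [smoothTransition.one_of_one_le (le_add_of_nonneg_left (add_nonneg (sq_nonneg _)
      (List.sum_nonneg (List.forall_mem_map.2 fun _ _ => sq_nonneg _)))), mul_one, add_assoc,
      div_eq_inv_mul, Complex.real_smul, Complex.ofReal_inv]

theorem cs {e : Co M₀ lam r} (he : CoIn I₀ Ω e) {u : T.Sc c.SV} (hu : T.EC j u) :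
    T.EC (N := c.SV) j fun d i x =>
      cs (c.J d) ((cz c z d i).co (T.F d i) ((t d i).co e)) (u d i x) :=
  (((h.co he).clm (L := fun _ => Complex.reCLM) (.const _)).smul h.h7 le_rfl hu).add
    (((h.co he).clm (L := fun _ => Complex.imCLM) (.const _)).smul h.h7 le_rfl
      (hu.clm (L := c.J) h.o.J))

theorem qj {e : Co M₀ lam r} {s : M₀ → Eu lam} {u v : SW M₀} {l : List (La M₀)} (he : CoIn I₀ Ω e)
    (hs : Tv I₀ Ω s) (hu : SwIn I₀ Ω u) (hv : SwIn I₀ Ω v) (hl : LlIn I₀ Ω l) :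
    T.EC (N := c.SA) j fun d i => wd ((cz c z d i).la (T.F d i)) ((cz c z d i).qj (T.F d i)
      ((t d i).co e) ((t d i).s s) (u.map (t d i).lt) (v.map (t d i).lt)) (l.map (t d i).la) :=
  h.wa hl (h.q (h.cs he (h.js hs (h.sw hu))) (h.sw hv))

variable {e : Tm M₀ lam r n} (he : TmIn I₀ Ω e)
include he

theorem tD : T.EL (N := c.SV) j fun d i => (cz c z d i).tD (T.S d i).B (T.F d i) ((t d i).tm e) := by
  cases e with
  | lin u => exact h.pm.app h.h7 le_rfl (h.sw he.1).el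
  | anti e s u => exact h.pm.app h.h7 le_rfl (h.cs he.1 (h.js he.2.1 (h.sw he.2.2))).el
  | _ => exact EL.zero

theorem tC : T.EL (N := c.S2) j fun d i => (cz c z d i).tC (T.S d i).B (T.F d i) ((t d i).tm e) := by
  cases e with
  | ad g g' ξ => exact h.p2 (h.o.wedge (h.fd he.1) (h.fd he.2.1) (h.aw he.2.2).el)
  | adj e s g g' u v l =>
    obtain ⟨h1, h2, h3, h4, h5, h6, h7⟩ := he
    exact h.p2 (h.o.wedge (h.fd h3) (h.fd h4) (h.qj h1 h2 h5 h6 h7).el)
  | adn f g g' φ L =>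
    obtain ⟨h1, h2, h3, h4, -, h5⟩ := he
    have a : T.EC (N := c.SA) j fun d i => (cz c z d i).aws (T.F d i) (L.map (t d i).aw) :=
      (ec_list fun ξ hξ => h.aw (h5 ξ hξ)).congr' fun _ _ _ => by
        simp only [Cfg.aws, List.map_map, comp_def]
    have b := (a.inner h.h7 a).comp h4 h.o.hn
    simp only [real_inner_self_eq_norm_sq] at b
    exact h.p2 (EL.toLp fun s : ι × ι => (((((h.fc h1).mul h.h7 (h.fd h2 s.1)).mul h.h7 (h.fd h3 s.2)).mul
      h.h7 b).smul h.h7 le_rfl a).el)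
  | _ => exact EL.zero

theorem tS (a : Fin n) : T.EC (N := fun _ => ℂ) j fun d i _ =>
    (cz c z d i).tS (T.F d i) ((t d i).tm e) a := by
  have s : ∀ (b : Fin n) (w : ℂ) {u : 𝒟 → Bool → ℂ}, SP T u →
      T.EC (N := fun _ => ℂ) j fun d i _ => (Pi.single b (w * u d i) : Fin n → ℂ) a := fun b w u hu =>
    ((h.toT0.ec hu).clm (L := fun _ => if a = b then .mul ℝ ℂ w else 0) (.const _)).congr'
      fun _ _ _ => by rw [Pi.single_apply]; split_ifs <;> rfl
  cases e with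
  | cut b w g => exact s b w (h.sg he)
  | cz b w k => exact s b w (h.z k)
  | _ => exact .const (c := fun _ => 0) (.const _)

omit he in
theorem xi {ξ : Xi M₀ lam r} (hξ : XiIn I₀ Ω ξ) {x : 𝒟 → M} {R : ℝ}
    (hx : ∀ᶠ d in X.l, |X.τ d (x d)| ≤ R) :
    SP (N := En (Fin n₀)) T fun d i => (cz c z d i).xi (T.F d i) ((t d i).xi ξ) (T.ψ d i (x d)) := by
  have s : ∀ {u : T.Sc c.SA}, T.EC j u → SP T fun d i => opL (u d i (T.ψ d i (x d))) := fun hu =>
    let ⟨K, hK, e⟩ := h.toT0.pt (hu.of_le (h.h7.trans' (by omega))) hx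
    ⟨‖opL (κ := Fin n₀)‖ * K, by positivity, e.mono fun _ e =>
      ⟨fun i => opL.le_of_opNorm_le_of_le le_rfl (e.1 i), by
        rw [← map_sub, mul_assoc]; exact opL.le_of_opNorm_le_of_le le_rfl e.2⟩⟩
  cases ξ with
  | one => exact ⟨‖(1 : En (Fin n₀))‖, norm_nonneg _, T.lw.2.mono fun _ e => ⟨fun _ => le_rfl,
      ((congrArg _ (sub_self (1 : En (Fin n₀)))).trans norm_zero).trans_le
        (mul_nonneg (norm_nonneg _) (e 0 0).1.le)⟩⟩
  | aw ξ => exact s (h.aw hξ)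
  | qj e s' u v l => exact s (h.qj hξ.1 hξ.2.1 hξ.2.2.1 hξ.2.2.2.1 hξ.2.2.2.2)

end TH

end Crest.Agent.X212.Loc45
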